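import Vale.Agent.P069.MathlibUsed
import Vale.Agent.P069.Defs
attribute [-instance] ProperSMul.toContinuousSMul IsTopologicalTorsor.toContinuousSMul IdemSemiring.toCanonicallyOrderedAdd IdemSemiring.toMulLeftMono IdemSemiring.toMulRightMono AddQuantale.instAddLeftMono AddQuantale.instAddRightMono Quantale.instMulLeftMono Quantale.instMulRightMono FiniteDimensional.rclike_to_real IsScalarTower.complexToReal FiniteDimensional.complexToReal

set_option linter.all false

section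

section

open Filter Topology TopologicalSpace

namespace Vale.Agent.P069

/-- A countable `ℓ²`-sum of separable normed spaces is separable. -/
theorem separableSpace_lp {ι : Type*} [Countable ι] (E : ι → Type*)
    [∀ i, NormedAddCommGroup (E i)] [∀ i, NormedSpace ℝ (E i)] [∀ i, SeparableSpace (E i)] :
    SeparableSpace (lp E 2) := by
  classical
  rw [← isSeparable_univ_iff]
  let S : Finset ι → Set (lp E 2) := fun s =>
    Set.range (fun x : (i : s) → E i => ∑ i : s, lp.singleContinuousLinearMap ℝ E 2 i.1 (x i))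
  have hS : ∀ s, IsSeparable (S s) := fun s => isSeparable_range (by fun_prop)
  have h1 : IsSeparable (⋃ s, S s) := IsSeparable.iUnion hS
  refine h1.closure.mono ?_
  intro f _
  have h2 := lp.hasSum_single (p := 2) (by norm_num) f
  refine mem_closure_of_tendsto h2 (Eventually.of_forall fun s => ?_)
  refine Set.mem_iUnion.2 ⟨s, fun i => f i.1, ?_⟩
  simp only [lp.singleContinuousLinearMap_apply]
  exact Finset.sum_coe_sort s (fun i => lp.single 2 i (f i))

theorem separableSpace_of_equiv {X Y : Type*} [TopologicalSpace X] [TopologicalSpace Y]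
    [SeparableSpace Y] (e : Y ≃ₜ X) : SeparableSpace X :=
  e.surjective.denseRange.separableSpace e.continuous

end Vale.Agent.P069
end
end

section

section

open Filter Topology

namespace Vale.Agent.P069

/-- Two-sided lower 2-estimate at `u` for all perturbations in some finite-codimensional subspace. -/
def TwoAMUC {X : Type*} [NormedAddCommGroup X] [NormedSpace ℝ X] (c : ℝ) (u : X) : Prop :=
  ∃ F : Submodule ℝ X, IsCofinite F ∧
    ∀ y ∈ F, 2 * ‖u‖ ^ 2 + c * ‖y‖ ^ 2 ≤ ‖u + y‖ ^ 2 + ‖u - y‖ ^ 2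

/-- A bounded tree of height `n` with separated, weakly null increments. -/
def GoodTree (X : Type*) [NormedAddCommGroup X] [NormedSpace ℝ X] (c : ℝ) (n : ℕ) : Prop :=
  ∃ x : List ℕ → X, (∀ t, t.length ≤ n → ‖x t‖ ≤ 1) ∧
    (∀ t, t.length < n → ∀ i : ℕ, c ≤ ‖x (i :: t) - x t‖) ∧
    ∀ t, t.length < n → ∀ f : StrongDual ℝ X,
      Tendsto (fun i : ℕ => f (x (i :: t) - x t)) atTop (𝓝 0)

end Vale.Agent.P069
end
end

section

section

open Filter Topology
open scoped ENNReal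

namespace Vale.Agent.P069

theorem isReflexive_of_hilbert (H : Type*) [NormedAddCommGroup H] [InnerProductSpace ℝ H]
    [CompleteSpace H] : IsReflexive H := by
  intro Φ
  let ψ : StrongDual ℝ H :=
    Φ.comp (innerSL ℝ (E := H))
  refine ⟨(InnerProductSpace.toDual ℝ H).symm ψ, ?_⟩
  ext φ
  have h1 : innerSL ℝ ((InnerProductSpace.toDual ℝ H).symm φ) = φ := by
    ext z
    simp [InnerProductSpace.toDual_symm_apply]
  rw [NormedSpace.dual_def]
  have h2 : Φ φ = ψ ((InnerProductSpace.toDual ℝ H).symm φ) := by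
    conv_lhs => rw [← h1]
    rfl
  rw [h2]
  have h3 := InnerProductSpace.toDual_symm_apply (𝕜 := ℝ) (x := (InnerProductSpace.toDual ℝ H).symm φ)
    (y := ψ)
  have h4 := InnerProductSpace.toDual_symm_apply (𝕜 := ℝ) (x := (InnerProductSpace.toDual ℝ H).symm ψ)
    (y := φ)
  rw [← h3, ← h4, real_inner_comm]

theorem IsReflexive.of_cle {X Y : Type*} [NormedAddCommGroup X] [NormedSpace ℝ X]
    [NormedAddCommGroup Y] [NormedSpace ℝ Y] (e : X ≃L[ℝ] Y) (h : IsReflexive Y) :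
    IsReflexive X := by
  intro Φ
  let A : StrongDual ℝ Y →L[ℝ] StrongDual ℝ X :=
    (ContinuousLinearMap.compL ℝ X Y ℝ).flip (e : X →L[ℝ] Y)
  obtain ⟨y, hy⟩ := h (Φ.comp A)
  refine ⟨e.symm y, ?_⟩
  ext f
  have h1 : A (f.comp (e.symm : Y →L[ℝ] X)) = f := by
    ext z
    simp [A]
  have h2 : (NormedSpace.inclusionInDoubleDual ℝ Y y) (f.comp (e.symm : Y →L[ℝ] X)) =
      Φ.comp A (f.comp (e.symm : Y →L[ℝ] X)) := by rw [hy]
  have h3 : (Φ.comp A) (f.comp (e.symm : Y →L[ℝ] X)) = Φ f := by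
    rw [ContinuousLinearMap.comp_apply (g := Φ), h1]
  rw [NormedSpace.dual_def, h3] at h2
  rw [NormedSpace.dual_def, ← h2]
  rfl

theorem IsReflexive.dual {X : Type*} [NormedAddCommGroup X] [NormedSpace ℝ X]
    (h : IsReflexive X) : IsReflexive (StrongDual ℝ X) := by
  intro Ψ
  refine ⟨Ψ.comp (NormedSpace.inclusionInDoubleDual ℝ X), ?_⟩
  ext Φ
  obtain ⟨x, rfl⟩ := h Φ
  rfl

section lp

variable {X : ℕ → Type*} [∀ n, NormedAddCommGroup (X n)] [∀ n, NormedSpace ℝ (X n)]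

lemma lp_hasSum_sq (f : lp X 2) : HasSum (fun n => ‖f n‖ ^ 2) (‖f‖ ^ 2) := by
  have h := lp.hasSum_norm (p := 2) (by norm_num) f
  simpa using h

lemma lp_sum_sq_le (f : lp X 2) (s : Finset ℕ) : ∑ n ∈ s, ‖f n‖ ^ 2 ≤ ‖f‖ ^ 2 :=
  sum_le_hasSum s (fun _ _ => sq_nonneg _) (lp_hasSum_sq f)

lemma lp_norm_sum_single_sq (f : ∀ n, X n) (s : Finset ℕ) :
    ‖∑ n ∈ s, lp.single 2 n (f n)‖ ^ 2 = ∑ n ∈ s, ‖f n‖ ^ 2 := by
  have h := lp.norm_sum_single (p := 2) (by norm_num) f s
  simpa using h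

/-- inclusion of the `n`-th coordinate space -/
noncomputable abbrev inc (X : ℕ → Type*) [∀ n, NormedAddCommGroup (X n)]
    [∀ n, NormedSpace ℝ (X n)] (n : ℕ) : X n →L[ℝ] lp X 2 :=
  lp.singleContinuousLinearMap ℝ X 2 n

/-- projection on the `n`-th coordinate space -/
noncomputable abbrev prj (X : ℕ → Type*) [∀ n, NormedAddCommGroup (X n)]
    [∀ n, NormedSpace ℝ (X n)] (n : ℕ) : lp X 2 →L[ℝ] X n :=
  lp.evalCLM ℝ X 2 n

lemma inc_apply (n : ℕ) (x : X n) : inc X n x = lp.single 2 n x := rfl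

/-- A functional on the sum given by finitely many coordinate functionals: norm estimate. -/
lemma norm_sum_comp_prj_le (g : ∀ n, StrongDual ℝ (X n)) (s : Finset ℕ) :
    ‖∑ n ∈ s, (g n).comp (prj X n)‖ ≤ Real.sqrt (∑ n ∈ s, ‖g n‖ ^ 2) := by
  refine ContinuousLinearMap.opNorm_le_bound _ (Real.sqrt_nonneg _) fun z => ?_
  rw [sum_apply]
  calc ‖∑ n ∈ s, ((g n).comp (prj X n)) z‖ ≤ ∑ n ∈ s, ‖((g n).comp (prj X n)) z‖ :=
        norm_sum_le _ _
    _ ≤ ∑ n ∈ s, ‖g n‖ * ‖z n‖ := Finset.sum_le_sum fun n _ => (g n).le_opNorm _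
    _ ≤ Real.sqrt (∑ n ∈ s, ‖g n‖ ^ 2) * Real.sqrt (∑ n ∈ s, ‖z n‖ ^ 2) :=
        Real.sum_mul_le_sqrt_mul_sqrt _ _ _
    _ ≤ Real.sqrt (∑ n ∈ s, ‖g n‖ ^ 2) * ‖z‖ := by
        gcongr
        rw [Real.sqrt_le_left (norm_nonneg _)]
        exact lp_sum_sq_le z s

/-- The coordinate norms of a functional on the sum are square summable. -/
lemma sum_sq_norm_comp_inc_le (φ : StrongDual ℝ (lp X 2)) (s : Finset ℕ) :
    ∑ n ∈ s, ‖φ.comp (inc X n)‖ ^ 2 ≤ 4 * ‖φ‖ ^ 2 := by
  have h : ∀ n, ∃ z : X n, ‖z‖ ≤ 1 ∧ ‖φ.comp (inc X n)‖ / 2 ≤ φ (inc X n z) := by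
    intro n
    rcases eq_or_lt_of_le (norm_nonneg (φ.comp (inc X n))) with h0 | h0
    · exact ⟨0, by simp, by rw [← h0]; simp⟩
    · obtain ⟨z, hz1, hz2⟩ := ContinuousLinearMap.exists_lt_apply_of_lt_opNorm
        (φ.comp (inc X n)) (show ‖φ.comp (inc X n)‖ / 2 < ‖φ.comp (inc X n)‖ by linarith)
      rcases le_total 0 (φ (inc X n z)) with h1 | h1
      · refine ⟨z, hz1.le, ?_⟩
        rw [ContinuousLinearMap.comp_apply, Real.norm_of_nonneg h1] at hz2
        exact hz2.le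
      · refine ⟨-z, by rw [norm_neg]; exact hz1.le, ?_⟩
        rw [ContinuousLinearMap.comp_apply, Real.norm_of_nonpos h1] at hz2
        rw [map_neg, map_neg]
        exact hz2.le
  choose z hz1 hz2 using h
  set a : ℕ → ℝ := fun n => ‖φ.comp (inc X n)‖ / 2 with ha
  have ha0 : ∀ n, 0 ≤ a n := fun n => by positivity
  set w : lp X 2 := ∑ n ∈ s, lp.single 2 n (a n • z n) with hw
  have h1 : ∑ n ∈ s, a n ^ 2 ≤ φ w := by
    rw [hw, map_sum]
    refine Finset.sum_le_sum fun n _ => ?_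
    have : φ (lp.single 2 n (a n • z n)) = a n * φ (inc X n (z n)) := by
      rw [← inc_apply, map_smul, map_smul, smul_eq_mul]
    rw [this, sq]
    exact mul_le_mul_of_nonneg_left (hz2 n) (ha0 n)
  have h2 : ‖w‖ ^ 2 ≤ ∑ n ∈ s, a n ^ 2 := by
    rw [hw, lp_norm_sum_single_sq]
    refine Finset.sum_le_sum fun n _ => ?_
    rw [norm_smul, mul_pow, Real.norm_of_nonneg (ha0 n)]
    exact mul_le_of_le_one_right (sq_nonneg _) (pow_le_one₀ (norm_nonneg _) (hz1 n))
  set S := ∑ n ∈ s, a n ^ 2 with hS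
  have hS0 : 0 ≤ S := Finset.sum_nonneg fun n _ => sq_nonneg _
  have h3 : S ≤ ‖φ‖ * ‖w‖ := h1.trans ((le_abs_self _).trans (φ.le_opNorm w))
  have h4 : S ^ 2 ≤ ‖φ‖ ^ 2 * S := by
    calc S ^ 2 ≤ (‖φ‖ * ‖w‖) ^ 2 := by gcongr
      _ = ‖φ‖ ^ 2 * ‖w‖ ^ 2 := by ring
      _ ≤ ‖φ‖ ^ 2 * S := by gcongr
  have h5 : S ≤ ‖φ‖ ^ 2 := by
    rcases eq_or_lt_of_le hS0 with h | h
    · rw [← h]; positivity
    · rw [sq] at h4
      exact le_of_mul_le_mul_right h4 h
  have h6 : ∑ n ∈ s, ‖φ.comp (inc X n)‖ ^ 2 = 4 * S := by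
    rw [hS, Finset.mul_sum]
    refine Finset.sum_congr rfl fun n _ => ?_
    rw [ha]; ring
  rw [h6]
  linarith

/-- Every functional on the sum is the norm limit of its coordinate truncations. -/
lemma tendsto_truncation (φ : StrongDual ℝ (lp X 2)) :
    Tendsto (fun N => ∑ n ∈ Finset.range N, (φ.comp (inc X n)).comp (prj X n)) atTop (𝓝 φ) := by
  have hsum : Summable (fun n => ‖φ.comp (inc X n)‖ ^ 2) :=
    summable_of_sum_le (fun _ => sq_nonneg _) (sum_sq_norm_comp_inc_le φ)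
  have htail := tendsto_sum_nat_add (fun n => ‖φ.comp (inc X n)‖ ^ 2)
  rw [tendsto_iff_norm_sub_tendsto_zero]
  have hbound : ∀ N, ‖∑ n ∈ Finset.range N, (φ.comp (inc X n)).comp (prj X n) - φ‖ ≤
      Real.sqrt (∑' k, ‖φ.comp (inc X (k + N))‖ ^ 2) := by
    intro N
    refine ContinuousLinearMap.opNorm_le_bound _ (Real.sqrt_nonneg _) fun z => ?_
    have hz := (lp.hasSum_single (p := 2) (by norm_num) z).tendsto_sum_nat
    have hφz : Tendsto (fun M => φ (∑ n ∈ Finset.range M, lp.single 2 n (z n))) atTop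
        (𝓝 (φ z)) := (φ.continuous.tendsto z).comp hz
    have hlim : Tendsto (fun M => ‖(∑ n ∈ Finset.range N, (φ.comp (inc X n)).comp (prj X n)) z
        - φ (∑ n ∈ Finset.range M, lp.single 2 n (z n))‖) atTop
        (𝓝 ‖(∑ n ∈ Finset.range N, (φ.comp (inc X n)).comp (prj X n) - φ) z‖) := by
      rw [sub_apply]
      exact (tendsto_const_nhds.sub hφz).norm
    refine le_of_tendsto hlim ?_
    filter_upwards [eventually_ge_atTop N] with M hM
    have h1 : (∑ n ∈ Finset.range N, (φ.comp (inc X n)).comp (prj X n)) z =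
        ∑ n ∈ Finset.range N, φ (lp.single 2 n (z n)) := by
      rw [sum_apply]
      rfl
    have h2 : φ (∑ n ∈ Finset.range M, lp.single 2 n (z n)) =
        ∑ n ∈ Finset.range N, φ (lp.single 2 n (z n)) +
        ∑ n ∈ Finset.Ico N M, φ (lp.single 2 n (z n)) := by
      rw [map_sum, Finset.sum_range_add_sum_Ico _ hM]
    rw [h1, h2, sub_add_cancel_left, norm_neg]
    calc ‖∑ n ∈ Finset.Ico N M, φ (lp.single 2 n (z n))‖
        ≤ ∑ n ∈ Finset.Ico N M, ‖φ (lp.single 2 n (z n))‖ := norm_sum_le _ _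
      _ ≤ ∑ n ∈ Finset.Ico N M, ‖φ.comp (inc X n)‖ * ‖z n‖ :=
          Finset.sum_le_sum fun n _ => (φ.comp (inc X n)).le_opNorm (z n)
      _ ≤ Real.sqrt (∑ n ∈ Finset.Ico N M, ‖φ.comp (inc X n)‖ ^ 2) *
          Real.sqrt (∑ n ∈ Finset.Ico N M, ‖z n‖ ^ 2) := Real.sum_mul_le_sqrt_mul_sqrt _ _ _
      _ ≤ Real.sqrt (∑' k, ‖φ.comp (inc X (k + N))‖ ^ 2) * ‖z‖ := by
          gcongr
          · rw [Finset.sum_Ico_eq_sum_range]
            rw [Finset.sum_congr rfl (fun k _ => by rw [Nat.add_comm N k] :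
              ∀ k ∈ Finset.range (M - N), ‖φ.comp (inc X (N + k))‖ ^ 2 =
                ‖φ.comp (inc X (k + N))‖ ^ 2)]
            exact ((summable_nat_add_iff N).mpr hsum).sum_le_tsum _ (fun _ _ => sq_nonneg _)
          · rw [Real.sqrt_le_left (norm_nonneg _)]
            exact lp_sum_sq_le z _
  refine squeeze_zero (fun _ => norm_nonneg _) hbound ?_
  have := (Real.continuous_sqrt.tendsto 0).comp htail
  rw [Real.sqrt_zero] at this
  exact this

theorem isReflexive_lp (h : ∀ n, IsReflexive (X n)) : IsReflexive (lp X 2) := by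
  intro Φ
  have h1 : ∀ n, ∃ x : X n, ∀ f : StrongDual ℝ (X n), f x = Φ (f.comp (prj X n)) := by
    intro n
    let A : StrongDual ℝ (X n) →L[ℝ] StrongDual ℝ (lp X 2) :=
      (ContinuousLinearMap.compL ℝ (lp X 2) (X n) ℝ).flip (prj X n)
    obtain ⟨x, hx⟩ := h n (Φ.comp A)
    refine ⟨x, fun f => ?_⟩
    have : (NormedSpace.inclusionInDoubleDual ℝ (X n) x) f = (Φ.comp A) f := by rw [hx]
    rw [NormedSpace.dual_def] at this
    rw [this]
    rfl
  choose x hx using h1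
  -- square summability
  have hsq : ∀ s : Finset ℕ, ∑ n ∈ s, ‖x n‖ ^ 2 ≤ ‖Φ‖ ^ 2 := by
    intro s
    have hg : ∀ n, ∃ g : StrongDual ℝ (X n), ‖g‖ ≤ 1 ∧ g (x n) = ‖x n‖ := fun n =>
      exists_dual_vector'' ℝ (x n)
    choose g hg1 hg2 using hg
    set S := ∑ n ∈ s, ‖x n‖ ^ 2 with hS
    have hS0 : 0 ≤ S := Finset.sum_nonneg fun n _ => sq_nonneg _
    have e1 : Φ (∑ n ∈ s, (‖x n‖ • g n).comp (prj X n)) = S := by
      rw [map_sum, hS]
      refine Finset.sum_congr rfl fun n _ => ?_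
      rw [← hx, smul_apply, hg2, smul_eq_mul, sq]
    have e2 : ‖∑ n ∈ s, (‖x n‖ • g n).comp (prj X n)‖ ≤ Real.sqrt S := by
      refine (norm_sum_comp_prj_le _ s).trans (Real.sqrt_le_sqrt ?_)
      refine Finset.sum_le_sum fun n _ => ?_
      rw [norm_smul, norm_norm, mul_pow]
      exact mul_le_of_le_one_right (sq_nonneg _) (pow_le_one₀ (norm_nonneg _) (hg1 n))
    have e3 : S ≤ ‖Φ‖ * Real.sqrt S := by
      calc S = Φ (∑ n ∈ s, (‖x n‖ • g n).comp (prj X n)) := e1.symm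
        _ ≤ ‖Φ (∑ n ∈ s, (‖x n‖ • g n).comp (prj X n))‖ := le_abs_self _
        _ ≤ ‖Φ‖ * ‖∑ n ∈ s, (‖x n‖ • g n).comp (prj X n)‖ := Φ.le_opNorm _
        _ ≤ ‖Φ‖ * Real.sqrt S := by gcongr
    have e4 : Real.sqrt S ≤ ‖Φ‖ := by
      rcases eq_or_lt_of_le (Real.sqrt_nonneg S) with h0 | h0
      · rw [← h0]; exact norm_nonneg Φ
      · refine le_of_mul_le_mul_right ?_ h0
        rwa [Real.mul_self_sqrt hS0]
    rw [← Real.sq_sqrt hS0]
    gcongr
  have hmem : Memℓp x 2 := by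
    refine memℓp_gen' (C := ‖Φ‖ ^ 2) fun s => ?_
    simpa using hsq s
  let xx : lp X 2 := ⟨x, hmem⟩
  refine ⟨xx, ?_⟩
  ext φ
  rw [NormedSpace.dual_def]
  have t1 : Tendsto (fun N => Φ (∑ n ∈ Finset.range N, (φ.comp (inc X n)).comp (prj X n))) atTop
      (𝓝 (Φ φ)) := (Φ.continuous.tendsto φ).comp (tendsto_truncation φ)
  have t2 : Tendsto (fun N => φ (∑ n ∈ Finset.range N, lp.single 2 n (xx n))) atTop
      (𝓝 (φ xx)) :=
    (φ.continuous.tendsto xx).comp (lp.hasSum_single (p := 2) (by norm_num) xx).tendsto_sum_nat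
  refine tendsto_nhds_unique t2 (t1.congr fun N => ?_)
  rw [map_sum, map_sum]
  refine Finset.sum_congr rfl fun n _ => ?_
  rw [← hx]
  rfl

end lp

end Vale.Agent.P069
end
end

section

section

open Filter Topology
open scoped ENNReal

namespace Vale.Agent.P069

section cofinite

variable {X : Type*} [NormedAddCommGroup X] [NormedSpace ℝ X]

/-- A subspace containing the kernel of a linear map to a finite-dimensional space has finite
codimension. -/
lemma finiteDimensional_quotient_of_ker_le {W : Type*} [AddCommGroup W] [Module ℝ W]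
    [FiniteDimensional ℝ W] (g : X →ₗ[ℝ] W) (F : Submodule ℝ X) (h : LinearMap.ker g ≤ F) :
    FiniteDimensional ℝ (X ⧸ F) := by
  have : FiniteDimensional ℝ (X ⧸ LinearMap.ker g) :=
    LinearEquiv.finiteDimensional g.quotKerEquivRange.symm
  exact Module.Finite.of_surjective (Submodule.factor h) (Submodule.factor_surjective h)

end cofinite

section lp

variable {X : ℕ → Type*} [∀ n, NormedAddCommGroup (X n)] [∀ n, NormedSpace ℝ (X n)]

theorem twoAMUC_sum_single {c : ℝ} (hc2 : c ≤ 2) (N : ℕ) (u : ∀ n, X n)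
    (h : ∀ n, TwoAMUC c (u n)) :
    TwoAMUC c (∑ n ∈ Finset.range N, lp.single (E := X) 2 n (u n)) := by
  choose F hF hFy using h
  set U : lp X 2 := ∑ n ∈ Finset.range N, lp.single (E := X) 2 n (u n) with hU
  have hUn : ∀ n, U n = if n < N then u n else 0 := by
    intro n
    rw [hU, lp.coeFn_sum, Finset.sum_apply]
    by_cases hn : n < N
    · rw [if_pos hn, Finset.sum_eq_single n]
      · exact lp.single_apply_self _ _ _
      · intro m _ hm
        exact lp.single_apply_ne _ _ _ hm.symm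
      · intro h0
        exact (h0 (Finset.mem_range.mpr hn)).elim
    · rw [if_neg hn]
      refine Finset.sum_eq_zero fun m hm => ?_
      have : m < N := Finset.mem_range.mp hm
      exact lp.single_apply_ne _ _ _ (by omega)
  let g : lp X 2 →ₗ[ℝ] (∀ n : Fin N, X n ⧸ F n) :=
    LinearMap.pi fun n => (F n).mkQ.comp (prj X n).toLinearMap
  have hker : ∀ y : lp X 2, y ∈ LinearMap.ker g ↔ ∀ n : Fin N, y n ∈ F n := by
    intro y
    rw [LinearMap.mem_ker]
    constructor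
    · intro h0 n
      have h1 : g y n = 0 := by rw [h0]; rfl
      exact (Submodule.Quotient.mk_eq_zero (F n)).mp h1
    · intro h0
      ext n
      exact (Submodule.Quotient.mk_eq_zero (F n)).mpr (h0 n)
  have : ∀ n : Fin N, FiniteDimensional ℝ (X n ⧸ F n) := fun n => (hF n).2
  refine ⟨LinearMap.ker g, ⟨?_, finiteDimensional_quotient_of_ker_le g _ le_rfl⟩, ?_⟩
  · have : (LinearMap.ker g : Set (lp X 2)) = ⋂ n : Fin N, (prj X n) ⁻¹' (F n : Set (X n)) := by
      ext y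
      simp only [SetLike.mem_coe, Set.mem_iInter, Set.mem_preimage]
      exact hker y
    rw [this]
    exact isClosed_iInter fun n => (hF n).1.preimage (prj X n).continuous
  · intro y hy
    rw [hker] at hy
    have s1 := ((lp_hasSum_sq U).mul_left 2).add ((lp_hasSum_sq y).mul_left c)
    have s2 := (lp_hasSum_sq (U + y)).add (lp_hasSum_sq (U - y))
    refine hasSum_le (fun n => ?_) s1 s2
    have e1 : (U + y) n = U n + y n := rfl
    have e2 : (U - y) n = U n - y n := rfl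
    rw [e1, e2, hUn]
    by_cases hn : n < N
    · rw [if_pos hn]
      exact hFy n (y n) (hy ⟨n, hn⟩)
    · rw [if_neg hn, zero_add, zero_sub, norm_neg, norm_zero]
      have := sq_nonneg ‖y n‖
      nlinarith

theorem dense_twoAMUC_lp {c : ℝ} (hc2 : c ≤ 2)
    (h : ∀ n, Dense {u : X n | TwoAMUC c u}) : Dense {u : lp X 2 | TwoAMUC c u} := by
  rw [Metric.dense_iff]
  intro z r hr
  have hz := (lp.hasSum_single (p := 2) (by norm_num) z).tendsto_sum_nat
  rw [Metric.tendsto_atTop] at hz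
  obtain ⟨N, hN⟩ := hz (r / 2) (by linarith)
  have hN := hN N le_rfl
  have hu : ∀ n, ∃ u : X n, TwoAMUC c u ∧ dist (z n) u < r / (2 * (N + 1)) := by
    intro n
    obtain ⟨u, hu1, hu2⟩ := Metric.dense_iff.mp (h n) (z n) (r / (2 * (N + 1))) (by positivity)
    exact ⟨u, hu2, by rwa [Metric.mem_ball, dist_comm] at hu1⟩
  choose u hu1 hu2 using hu
  refine ⟨∑ n ∈ Finset.range N, lp.single (E := X) 2 n (u n), ?_,
    twoAMUC_sum_single hc2 N u hu1⟩
  rw [Metric.mem_ball]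
  have h1 : dist (∑ n ∈ Finset.range N, lp.single (E := X) 2 n (u n))
      (∑ n ∈ Finset.range N, lp.single (E := X) 2 n (z n)) ≤ N * (r / (2 * (N + 1))) := by
    rw [dist_eq_norm, ← Finset.sum_sub_distrib]
    refine (norm_sum_le _ _).trans ?_
    have h2 : ∀ n ∈ Finset.range N, ‖lp.single (E := X) 2 n (u n) - lp.single (E := X) 2 n (z n)‖
        ≤ r / (2 * (N + 1)) := by
      intro n _
      rw [← lp.single_sub, lp.norm_single (by norm_num), ← dist_eq_norm, dist_comm]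
      exact (hu2 n).le
    refine (Finset.sum_le_sum h2).trans ?_
    simp
  have h3 : (N : ℝ) * (r / (2 * (N + 1))) < r / 2 := by
    have hpos : (0:ℝ) < (N:ℝ) + 1 := by positivity
    rw [show (N : ℝ) * (r / (2 * (N + 1))) = (r / 2) * (N / (N + 1)) by field_simp]
    have : (N : ℝ) / (N + 1) < 1 := by
      rw [div_lt_one hpos]; linarith
    have hr2 : 0 < r / 2 := by linarith
    nlinarith
  calc dist (∑ n ∈ Finset.range N, lp.single (E := X) 2 n (u n)) z
      ≤ dist (∑ n ∈ Finset.range N, lp.single (E := X) 2 n (u n))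
        (∑ n ∈ Finset.range N, lp.single (E := X) 2 n (z n)) +
        dist (∑ n ∈ Finset.range N, lp.single (E := X) 2 n (z n)) z := dist_triangle _ _ _
    _ < r := by linarith

end lp

theorem GoodTree.map {X Y : Type*} [NormedAddCommGroup X] [NormedSpace ℝ X]
    [NormedAddCommGroup Y] [NormedSpace ℝ Y] (i : X →L[ℝ] Y) (hi : ∀ x, ‖i x‖ = ‖x‖)
    {c : ℝ} {n : ℕ} (h : GoodTree X c n) : GoodTree Y c n := by
  obtain ⟨x, h1, h2, h3⟩ := h
  refine ⟨fun t => i (x t), fun t ht => ?_, fun t ht k => ?_, fun t ht f => ?_⟩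
  · rw [hi]; exact h1 t ht
  · rw [← map_sub, hi]; exact h2 t ht k
  · have := h3 t ht (f.comp i)
    simpa only [ContinuousLinearMap.comp_apply, map_sub] using this

section lp

variable {X : ℕ → Type*} [∀ n, NormedAddCommGroup (X n)] [∀ n, NormedSpace ℝ (X n)]

theorem GoodTree.lp {c : ℝ} {n k : ℕ} (h : GoodTree (X k) c n) : GoodTree (lp X 2) c n :=
  GoodTree.map (inc X k) (fun x => lp.norm_single (by norm_num) k x) h

end lp

end Vale.Agent.P069
end
end

section

section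

open Filter Topology

namespace Vale.Agent.P069

variable {X : Type*} [NormedAddCommGroup X] [NormedSpace ℝ X]

/-- A weakly null sequence gets arbitrarily close to every finite-codimensional closed subspace. -/
theorem exists_near {F : Submodule ℝ X} (hF : IsCofinite F) {y : ℕ → X}
    (hy : ∀ f : StrongDual ℝ X, Tendsto (fun i => f (y i)) atTop (𝓝 0)) {ε : ℝ} (hε : 0 < ε) :
    ∃ i, ∃ z ∈ F, ‖y i - z‖ < ε := by
  have : IsClosed (F : Set X) := hF.1
  have : FiniteDimensional ℝ (X ⧸ F) := hF.2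
  let b := Module.finBasis ℝ (X ⧸ F)
  let φ := b.equivFunL
  have h1 : Tendsto (fun i => φ (F.mkQL (y i))) atTop (𝓝 0) := by
    rw [tendsto_pi_nhds]
    intro j
    let g : StrongDual ℝ X :=
      ((ContinuousLinearMap.proj j : (_ → ℝ) →L[ℝ] ℝ).comp φ.toContinuousLinearMap).comp F.mkQL
    exact hy g
  have h2 : Tendsto (fun i => F.mkQL (y i)) atTop (𝓝 0) := by
    have := (φ.symm.continuous.tendsto 0).comp h1
    simpa [Function.comp_def] using this
  have h3 : Tendsto (fun i => ‖F.mkQL (y i)‖) atTop (𝓝 0) := by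
    simpa using h2.norm
  obtain ⟨i, hi⟩ := (h3.eventually (gt_mem_nhds (show (0 : ℝ) < ε / 2 by linarith))).exists
  obtain ⟨m, hm1, hm2⟩ := Submodule.Quotient.norm_mk_lt (F.mkQL (y i))
    (show (0 : ℝ) < ε / 2 by linarith)
  refine ⟨i, y i - m, ?_, ?_⟩
  · rw [← Submodule.Quotient.mk_eq_zero, Submodule.Quotient.mk_sub, hm1]
    simp
  · have : y i - (y i - m) = m := by abel
    rw [this]
    linarith

theorem auc_step {N : Seminorm ℝ X} {c C κ : ℝ} (hc : 0 < c) (hC : 0 < C) (hκ : 0 < κ)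
    (hN : ∀ x : X, c * ‖x‖ ≤ N x ∧ N x ≤ C * ‖x‖) (hA : IsAUC N) :
    ∃ δ > 0, ∀ x : X, ‖x‖ ≤ 1 → ∀ y : ℕ → X, (∀ i, κ ≤ ‖y i‖) →
      (∀ f : StrongDual ℝ X, Tendsto (fun i => f (y i)) atTop (𝓝 0)) →
        ∃ i, N x + δ ≤ N (x + y i) := by
  set a : ℝ := c * κ with ha
  have ha0 : 0 < a := by positivity
  set τ : ℝ := a / (2 * C) with hτ
  have hτ0 : 0 < τ := by positivity
  obtain ⟨d, hd1, hd2⟩ := EReal.lt_iff_exists_real_btwn.1 (hA τ hτ0)
  have hd0 : 0 < d := by exact_mod_cast hd1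
  refine ⟨min (a / 2) (a * d / 8), lt_min (by positivity) (by positivity), ?_⟩
  intro x hx y hyκ hy
  have hya : ∀ i, a ≤ N (y i) := fun i =>
    (mul_le_mul_of_nonneg_left (hyκ i) hc.le).trans (hN (y i)).1
  rcases le_or_gt (N x) (a / 4) with hsmall | hbig
  · refine ⟨0, ?_⟩
    have h1 : N (y 0) ≤ N (x + y 0) + N x := by
      have : y 0 = (x + y 0) - x := by abel
      calc N (y 0) = N ((x + y 0) - x) := by rw [← this]
        _ ≤ N (x + y 0) + N x := map_sub_le_add N _ _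
    have h2 := hya 0
    have h3 : min (a / 2) (a * d / 8) ≤ a / 2 := min_le_left _ _
    linarith
  · have hNx : 0 < N x := by linarith
    have hNxC : N x ≤ C := (hN x).2.trans (by nlinarith)
    obtain ⟨x', hx'⟩ : ∃ x' : X, x' = (N x)⁻¹ • x := ⟨_, rfl⟩
    have hx'1 : N x' = 1 := by
      rw [hx', map_smul_eq_mul, Real.norm_of_nonneg (by positivity)]
      field_simp
    have h1 : (d : EReal) < ⨆ F : {F : Submodule ℝ X // IsCofinite F},
        ⨅ z : {z : X // z ∈ F.1 ∧ N z = 1}, ((N (x' + τ • z.1) - 1 : ℝ) : EReal) :=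
      hd2.trans_le (iInf_le _ (⟨x', hx'1⟩ : {x : X // N x = 1}))
    obtain ⟨F, hF⟩ := lt_iSup_iff.1 h1
    set ε : ℝ := min (a / 2) (a * d / 8) with hε
    have hε0 : 0 < ε := lt_min (by positivity) (by positivity)
    obtain ⟨i, z, hz, hyz⟩ := exists_near F.2 hy (show 0 < ε / C by positivity)
    have hNyz : N (y i - z) ≤ ε := by
      refine (hN _).2.trans ?_
      have := mul_le_mul_of_nonneg_left hyz.le hC.le
      rwa [mul_div_cancel₀ _ hC.ne'] at this
    have hNz : a / 2 ≤ N z := by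
      have h4 : N (y i) ≤ N z + N (y i - z) := by
        have : y i = z + (y i - z) := by abel
        calc N (y i) = N (z + (y i - z)) := by rw [← this]
          _ ≤ _ := map_add_le_add N _ _
      have h5 := hya i
      have h6 : ε ≤ a / 2 := min_le_left _ _
      linarith
    have hNz0 : 0 < N z := by linarith
    obtain ⟨z', hz'⟩ : ∃ z' : X, z' = (N z)⁻¹ • z := ⟨_, rfl⟩
    have hz'1 : N z' = 1 := by
      rw [hz', map_smul_eq_mul, Real.norm_of_nonneg (by positivity)]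
      field_simp
    have hz'F : z' ∈ F.1 := by rw [hz']; exact F.1.smul_mem _ hz
    have h7 : (d : EReal) < ((N (x' + τ • z') - 1 : ℝ) : EReal) :=
      hF.trans_le (iInf_le _ (⟨z', hz'F, hz'1⟩ : {z : X // z ∈ F.1 ∧ N z = 1}))
    have h8 : d < N (x' + τ • z') - 1 := by exact_mod_cast h7
    -- pass from `τ` to the larger multiple `s`
    obtain ⟨s, hs⟩ : ∃ s : ℝ, s = N z / N x := ⟨_, rfl⟩
    have hτs : τ ≤ s := by
      rw [hτ, hs, div_le_div_iff₀ (by positivity) hNx]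
      nlinarith
    have hs0 : 0 < s := by rw [hs]; positivity
    have hr0 : 0 ≤ τ / s := by positivity
    have hr1 : τ / s ≤ 1 := (div_le_one hs0).2 hτs
    have h9 : x' + τ • z' = (1 - τ / s) • x' + (τ / s) • (x' + s • z') := by
      rw [smul_add, smul_smul, sub_smul, one_smul, div_mul_cancel₀ _ hs0.ne']
      abel
    have h10 : N (x' + τ • z') ≤ (1 - τ / s) + (τ / s) * N (x' + s • z') := by
      rw [h9]
      refine (map_add_le_add N _ _).trans ?_
      rw [map_smul_eq_mul, map_smul_eq_mul, hx'1, Real.norm_of_nonneg hr0,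
        Real.norm_of_nonneg (by linarith), mul_one]
    have h11 : 1 + d ≤ N (x' + s • z') := by
      by_contra hcon
      push Not at hcon
      have : (τ / s) * N (x' + s • z') ≤ (τ / s) * (1 + d) :=
        mul_le_mul_of_nonneg_left hcon.le hr0
      have : (τ / s) * d ≤ 1 * d := mul_le_mul_of_nonneg_right hr1 hd0.le
      nlinarith
    have h12 : x + z = N x • (x' + s • z') := by
      rw [hx', hz', hs, smul_add, smul_smul, smul_smul, smul_smul, mul_inv_cancel₀ hNx.ne',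
        one_smul]
      congr 1
      have : N x * (N z / N x) * (N z)⁻¹ = 1 := by field_simp
      rw [this, one_smul]
    have h13 : N x * (1 + d) ≤ N (x + z) := by
      rw [h12, map_smul_eq_mul, Real.norm_of_nonneg hNx.le]
      exact mul_le_mul_of_nonneg_left h11 hNx.le
    have h14 : N (x + z) ≤ N (x + y i) + N (y i - z) := by
      have : x + z = (x + y i) - (y i - z) := by abel
      rw [this]
      exact map_sub_le_add N _ _
    refine ⟨i, ?_⟩
    have h15 : ε ≤ a * d / 8 := min_le_right _ _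
    nlinarith

/-- A space containing uniformly bounded, uniformly separated weakly null trees of every height
has no equivalent asymptotically uniformly convex norm. -/
theorem not_aucRenormable {κ : ℝ} (hκ : 0 < κ) (hT : ∀ n : ℕ, GoodTree X κ n) :
    ¬ AUCRenormable X := by
  rintro ⟨N, ⟨c, C, hc, hC, hN⟩, hA⟩
  obtain ⟨δ, hδ, hstep⟩ := auc_step hc hC hκ hN hA
  obtain ⟨n, hn⟩ := exists_nat_gt (C / δ)
  obtain ⟨x, hx1, hx2, hx3⟩ := hT n
  have key : ∀ k : ℕ, k ≤ n → ∃ t : List ℕ, t.length = k ∧ k * δ ≤ N (x t) := by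
    intro k
    induction k with
    | zero => intro _; exact ⟨[], rfl, by simp⟩
    | succ k ih =>
      intro hk
      obtain ⟨t, ht, hNt⟩ := ih (by omega)
      obtain ⟨i, hi⟩ := hstep (x t) (hx1 t (by omega)) (fun i => x (i :: t) - x t)
        (hx2 t (by omega)) (hx3 t (by omega))
      refine ⟨i :: t, by simp [ht], ?_⟩
      have : x t + (x (i :: t) - x t) = x (i :: t) := by abel
      rw [this] at hi
      push_cast
      linarith
  obtain ⟨t, ht, hNt⟩ := key n le_rfl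
  have h1 : N (x t) ≤ C := (hN (x t)).2.trans (by nlinarith [hx1 t ht.le, norm_nonneg (x t)])
  have h2 : C < n * δ := by
    rwa [div_lt_iff₀ hδ] at hn
  linarith

end Vale.Agent.P069
end
end

section

section

open Filter Topology

namespace Vale.Agent.P069

variable {X : Type*} [NormedAddCommGroup X] [NormedSpace ℝ X]

theorem sqrt_aux (K η : ℝ) (hK : 0 ≤ K) (hη : 0 ≤ η) :
    Real.sqrt (1 + K) - η ≤ Real.sqrt ((1 - η) ^ 2 + K) := by
  have h1 : 1 ≤ Real.sqrt (1 + K) := by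
    rw [Real.one_le_sqrt]; linarith
  have h2 : Real.sqrt (1 + K) ^ 2 = 1 + K := Real.sq_sqrt (by linarith)
  apply Real.le_sqrt_of_sq_le
  nlinarith

theorem le_amucModulus {c : ℝ} (hc : 0 < c) (hD : Dense {u : X | TwoAMUC c u}) {t : ℝ}
    (ht : 0 < t) :
    ((Real.sqrt (1 + c * t ^ 2 / 2) - 1 : ℝ) : EReal) ≤ amucModulus (normSeminorm ℝ X) t := by
  set K : ℝ := c * t ^ 2 / 2 with hKdef
  have hK : 0 < K := by positivity
  refine le_iInf fun x => ?_
  have hx : ‖x.1‖ = 1 := x.2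
  refine EReal.ge_of_forall_gt_iff_ge.1 fun r hr => ?_
  have hr' : r < Real.sqrt (1 + K) - 1 := by exact_mod_cast hr
  set η : ℝ := min ((Real.sqrt (1 + K) - 1 - r) / 2) (1 / 2) with hηdef
  have hη : 0 < η := by
    apply lt_min
    · linarith
    · norm_num
  have hη1 : η ≤ 1 / 2 := min_le_right _ _
  have hη2 : η ≤ (Real.sqrt (1 + K) - 1 - r) / 2 := min_le_left _ _
  obtain ⟨u, hu, hux⟩ := Metric.mem_closure_iff.1 (hD x.1) η hη
  obtain ⟨F, hF, hFu⟩ := hu
  refine le_iSup_of_le ⟨F, hF⟩ ?_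
  refine le_iInf fun y => ?_
  have hyF : y.1 ∈ F := y.2.1
  have hy : ‖y.1‖ = 1 := y.2.2
  have h1 := hFu (t • y.1) (F.smul_mem t hyF)
  have h2 : ‖t • y.1‖ = t := by rw [norm_smul, hy, Real.norm_of_nonneg ht.le, mul_one]
  rw [h2] at h1
  have hxu : ‖x.1 - u‖ < η := by rwa [dist_eq_norm] at hux
  have hun : 1 - η ≤ ‖u‖ := by
    have := norm_sub_norm_le x.1 u
    rw [hx] at this
    linarith
  set M : ℝ := max ‖u + t • y.1‖ ‖u - t • y.1‖ with hM
  have hM0 : 0 ≤ M := le_trans (norm_nonneg _) (le_max_left _ _)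
  have hM2 : (1 - η) ^ 2 + K ≤ M ^ 2 := by
    have e1 : ‖u + t • y.1‖ ^ 2 ≤ M ^ 2 :=
      pow_le_pow_left₀ (norm_nonneg _) (le_max_left _ _) 2
    have e2 : ‖u - t • y.1‖ ^ 2 ≤ M ^ 2 :=
      pow_le_pow_left₀ (norm_nonneg _) (le_max_right _ _) 2
    have e3 : (1 - η) ^ 2 ≤ ‖u‖ ^ 2 := pow_le_pow_left₀ (by linarith) hun 2
    have e4 : K = c * t ^ 2 / 2 := hKdef
    linarith
  have hM3 : Real.sqrt (1 + K) - η ≤ M := by
    refine (sqrt_aux K η hK.le hη.le).trans ?_
    rw [Real.sqrt_le_left hM0]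
    exact hM2
  have hmax : M - η ≤ max ‖x.1 + t • y.1‖ ‖x.1 - t • y.1‖ := by
    have f1 : ‖u + t • y.1‖ ≤ ‖x.1 + t • y.1‖ + η := by
      have : u + t • y.1 = (x.1 + t • y.1) - (x.1 - u) := by abel
      rw [this]
      refine (norm_sub_le _ _).trans ?_
      linarith
    have f2 : ‖u - t • y.1‖ ≤ ‖x.1 - t • y.1‖ + η := by
      have : u - t • y.1 = (x.1 - t • y.1) - (x.1 - u) := by abel
      rw [this]
      refine (norm_sub_le _ _).trans ?_
      linarith
    have f3 : M ≤ max ‖x.1 + t • y.1‖ ‖x.1 - t • y.1‖ + η := by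
      apply max_le
      · exact f1.trans (by gcongr; exact le_max_left _ _)
      · exact f2.trans (by gcongr; exact le_max_right _ _)
    linarith
  have : r ≤ max ‖x.1 + t • y.1‖ ‖x.1 - t • y.1‖ - 1 := by linarith
  have h' : ((r : ℝ) : EReal) ≤ ((max ‖x.1 + t • y.1‖ ‖x.1 - t • y.1‖ - 1 : ℝ) : EReal) := by
    exact_mod_cast this
  exact h'

theorem isAMUC_of_dense {c : ℝ} (hc : 0 < c) (hD : Dense {u : X | TwoAMUC c u}) :
    IsAMUC (normSeminorm ℝ X) := by
  intro t ht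
  refine lt_of_lt_of_le ?_ (le_amucModulus hc hD ht)
  have : (1 : ℝ) < Real.sqrt (1 + c * t ^ 2 / 2) := by
    rw [Real.lt_sqrt (by norm_num)]
    have : 0 < c * t ^ 2 / 2 := by positivity
    linarith
  have h' : (0 : ℝ) < Real.sqrt (1 + c * t ^ 2 / 2) - 1 := by linarith
  exact_mod_cast h'

/-- The modulus is of power type `2`. -/
theorem sq_le_amucModulus {c : ℝ} (hc : 0 < c) (hc2 : c ≤ 2)
    (hD : Dense {u : X | TwoAMUC c u}) {t : ℝ} (ht : 0 < t) (ht1 : t ≤ 1) :
    ((c / 6 * t ^ 2 : ℝ) : EReal) ≤ amucModulus (normSeminorm ℝ X) t := by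
  refine le_trans ?_ (le_amucModulus hc hD ht)
  have h0 : 0 ≤ c * t ^ 2 / 2 := by positivity
  have h1 : c * t ^ 2 / 2 ≤ 1 := by
    have : t ^ 2 ≤ 1 := pow_le_one₀ ht.le ht1
    nlinarith
  have h2 : 1 + c * t ^ 2 / 2 / 3 ≤ Real.sqrt (1 + c * t ^ 2 / 2) := by
    apply Real.le_sqrt_of_sq_le
    nlinarith
  have h3 : c / 6 * t ^ 2 ≤ Real.sqrt (1 + c * t ^ 2 / 2) - 1 := by linarith
  exact_mod_cast h3

theorem isEquivNorm_norm : IsEquivNorm (normSeminorm ℝ X) :=
  ⟨1, 1, one_pos, one_pos, fun x => by simp⟩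

end Vale.Agent.P069
end
end

section

section

open Filter Topology

namespace Vale.Agent.P069

variable {X : Type*} [NormedAddCommGroup X] [NormedSpace ℝ X]

theorem isCofinite_bot [FiniteDimensional ℝ X] : IsCofinite (⊥ : Submodule ℝ X) :=
  ⟨Submodule.closed_of_finiteDimensional _, inferInstance⟩

/-- In finite dimension every norm is (vacuously) asymptotically uniformly convex. -/
theorem aucRenormable_of_finiteDimensional [FiniteDimensional ℝ X] : AUCRenormable X := by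
  refine ⟨normSeminorm ℝ X, ⟨1, 1, one_pos, one_pos, fun x => by simp⟩, ?_⟩
  intro t ht
  have : (1 : EReal) ≤ aucModulus (normSeminorm ℝ X) t := by
    refine le_iInf fun x => ?_
    refine le_iSup_of_le ⟨⊥, isCofinite_bot⟩ ?_
    refine le_iInf fun y => ?_
    exfalso
    have h1 : y.1 = 0 := y.2.1
    have h2 := y.2.2
    rw [h1] at h2
    simp at h2
  exact lt_of_lt_of_le zero_lt_one this

end Vale.Agent.P069
end
end

section

section

open Filter Topology TopologicalSpace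

namespace Vale.Agent.P069

theorem assemble (X : ℕ → Type) [∀ n, NormedAddCommGroup (X n)] [∀ n, NormedSpace ℝ (X n)]
    [∀ n, CompleteSpace (X n)] [∀ n, SeparableSpace (X n)] {c κ : ℝ} (hc : 0 < c) (hc2 : c ≤ 2)
    (hκ : 0 < κ) (hR : ∀ n, IsReflexive (X n)) (hD : ∀ n, Dense {u : X n | TwoAMUC c u})
    (hT : ∀ n, GoodTree (X n) κ n) :
    ∃ (Z : Type) (_ : NormedAddCommGroup Z) (_ : NormedSpace ℝ Z),
      CompleteSpace Z ∧ SeparableSpace Z ∧ ¬ FiniteDimensional ℝ Z ∧ IsReflexive Z ∧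
      IsAMUC (normSeminorm ℝ Z) ∧
      (∃ a : ℝ, 0 < a ∧ ∀ t : ℝ, 0 < t → t ≤ 1 →
        ((a * t ^ 2 : ℝ) : EReal) ≤ amucModulus (normSeminorm ℝ Z) t) ∧
      ¬ AUCRenormable Z := by
  have hD' := dense_twoAMUC_lp hc2 hD
  have hN : ¬ AUCRenormable (lp X 2) := not_aucRenormable hκ fun n => (hT n).lp
  refine ⟨lp X 2, inferInstance, inferInstance, inferInstance, separableSpace_lp X, ?_,
    isReflexive_lp hR, isAMUC_of_dense hc hD', ⟨c / 6, by positivity, fun t ht ht1 =>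
      sq_le_amucModulus hc hc2 hD' ht ht1⟩, hN⟩
  intro hfin
  exact hN aucRenormable_of_finiteDimensional

end Vale.Agent.P069
end
end

section

section

open Filter Topology
open scoped ENNReal

namespace Vale.Agent.P069

/-- The Hilbert space of increments. -/
abbrev HH : Type := lp (fun _ : List ℕ => ℝ) 2

/-- The space of bounded functions on the nodes. -/
abbrev BB : Type := lp (fun _ : List ℕ => ℝ) ∞

/-- Cumulative sums (only nodes of length at most `n` are counted). -/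
def cum (n : ℕ) (w : List ℕ → ℝ) : List ℕ → ℝ
  | [] => 0
  | k :: t => cum n w t + if t.length < n then w (k :: t) else 0

lemma cum_nil (n : ℕ) (w : List ℕ → ℝ) : cum n w [] = 0 := rfl

lemma cum_cons (n : ℕ) (w : List ℕ → ℝ) (k : ℕ) (t : List ℕ) :
    cum n w (k :: t) = cum n w t + if t.length < n then w (k :: t) else 0 := rfl

lemma cum_add (n : ℕ) (v w : List ℕ → ℝ) (t : List ℕ) :
    cum n (v + w) t = cum n v t + cum n w t := by
  induction t with
  | nil => simp [cum_nil]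
  | cons k t ih =>
    rw [cum_cons, cum_cons, cum_cons, ih]
    split_ifs
    · simp only [Pi.add_apply]; ring
    · ring

lemma cum_smul (n : ℕ) (a : ℝ) (w : List ℕ → ℝ) (t : List ℕ) :
    cum n (a • w) t = a * cum n w t := by
  induction t with
  | nil => simp [cum_nil]
  | cons k t ih =>
    rw [cum_cons, cum_cons, ih]
    split_ifs
    · simp only [Pi.smul_apply, smul_eq_mul]; ring
    · ring

lemma abs_cum_le (n : ℕ) (w : List ℕ → ℝ) {C : ℝ} (hw : ∀ t, |w t| ≤ C) (t : List ℕ) :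
    |cum n w t| ≤ ((min t.length n : ℕ) : ℝ) * C := by
  have hC : 0 ≤ C := (abs_nonneg _).trans (hw [])
  induction t with
  | nil => simp [cum_nil]
  | cons k t ih =>
    rw [cum_cons]
    by_cases h : t.length < n
    · rw [if_pos h]
      refine (abs_add_le _ _).trans ?_
      have h1 : min t.length n = t.length := min_eq_left h.le
      have h2 : min (k :: t).length n = t.length + 1 := by
        rw [List.length_cons]
        exact min_eq_left h
      rw [h1] at ih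
      rw [h2]
      have := hw (k :: t)
      push_cast
      linarith
    · rw [if_neg h, add_zero]
      refine ih.trans (mul_le_mul_of_nonneg_right ?_ hC)
      have : min t.length n ≤ min (k :: t).length n :=
        min_le_min_right _ (by rw [List.length_cons]; omega)
      exact_mod_cast this

lemma abs_apply_le_norm (w : HH) (t : List ℕ) : |w t| ≤ ‖w‖ :=
  lp.norm_apply_le_norm (by norm_num) w t

lemma abs_cum_le_norm (n : ℕ) (w : HH) (t : List ℕ) : |cum n w t| ≤ n * ‖w‖ := by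
  refine (abs_cum_le n w (abs_apply_le_norm w) t).trans ?_
  refine mul_le_mul_of_nonneg_right ?_ (norm_nonneg _)
  have : min t.length n ≤ n := min_le_right _ _
  exact_mod_cast this

/-- The cumulative sum operator. -/
noncomputable def SS (n : ℕ) : HH →ₗ[ℝ] BB where
  toFun w := ⟨fun t => cum n w t, memℓp_infty ⟨n * ‖w‖, by
    rintro _ ⟨t, rfl⟩; exact abs_cum_le_norm n w t⟩⟩
  map_add' v w := by ext t; exact cum_add n v w t
  map_smul' a w := by ext t; exact cum_smul n a w t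

lemma SS_apply (n : ℕ) (w : HH) (t : List ℕ) : SS n w t = cum n w t := rfl

lemma norm_SS_le (n : ℕ) (w : HH) : ‖SS n w‖ ≤ n * ‖w‖ :=
  lp.norm_le_of_forall_le (by positivity) (abs_cum_le_norm n w)

lemma abs_cum_le_SS (n : ℕ) (w : HH) (t : List ℕ) : |cum n w t| ≤ ‖SS n w‖ :=
  lp.norm_apply_le_norm (by norm_num) (SS n w) t

/-- The graph embedding. -/
noncomputable def AA (n : ℕ) : HH →ₗ[ℝ] WithLp 2 (HH × BB) :=
  (WithLp.linearEquiv 2 ℝ (HH × BB)).symm.toLinearMap.comp (LinearMap.prod LinearMap.id (SS n))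

/-- The renormed Hilbert space `Y n`. -/
abbrev YY (n : ℕ) : Type := LinearMap.range (AA n)

/-- The natural map onto `Y n`. -/
noncomputable def toY (n : ℕ) : HH →ₗ[ℝ] YY n := (AA n).rangeRestrict

lemma norm_toY_sq (n : ℕ) (w : HH) : ‖toY n w‖ ^ 2 = ‖w‖ ^ 2 + ‖SS n w‖ ^ 2 := by
  have h := WithLp.prod_norm_sq_eq_of_L2 (AA n w)
  exact h

lemma toY_surjective (n : ℕ) (y : YY n) : ∃ w, toY n w = y := by
  obtain ⟨y, w, rfl⟩ := y
  exact ⟨w, rfl⟩

lemma norm_le_toY (n : ℕ) (w : HH) : ‖w‖ ≤ ‖toY n w‖ := by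
  have h := norm_toY_sq n w
  have h2 := sq_nonneg ‖SS n w‖
  exact le_of_sq_le_sq (by linarith) (norm_nonneg _)

lemma norm_SS_le_toY (n : ℕ) (w : HH) : ‖SS n w‖ ≤ ‖toY n w‖ := by
  have h := norm_toY_sq n w
  have h2 := sq_nonneg ‖w‖
  exact le_of_sq_le_sq (by linarith) (norm_nonneg _)

lemma norm_toY_le (n : ℕ) (w : HH) : ‖toY n w‖ ≤ (n + 1) * ‖w‖ := by
  have h := norm_toY_sq n w
  have h1 := norm_SS_le n w
  have h2 : ‖SS n w‖ ^ 2 ≤ (n * ‖w‖) ^ 2 := by gcongr
  refine le_of_sq_le_sq ?_ (by positivity)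
  rw [h]
  have h3 : (0:ℝ) ≤ n := Nat.cast_nonneg n
  have h4 := norm_nonneg w
  nlinarith [mul_nonneg h3 (sq_nonneg ‖w‖)]

end Vale.Agent.P069
end
end

section

section

open Filter Topology TopologicalSpace
open scoped ENNReal

namespace Vale.Agent.P069

lemma toY_injective (n : ℕ) : Function.Injective (toY n) := by
  rw [← LinearMap.ker_eq_bot, LinearMap.ker_eq_bot']
  intro w hw
  have := norm_le_toY n w
  rw [hw, norm_zero] at this
  exact norm_le_zero_iff.mp this

/-- `Y n` is isomorphic to a Hilbert space. -/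
noncomputable def cleY (n : ℕ) : HH ≃L[ℝ] YY n :=
  LinearEquiv.toContinuousLinearEquivOfBounds
    (LinearEquiv.ofBijective (toY n) ⟨toY_injective n, toY_surjective n⟩) (n + 1) 1
    (norm_toY_le n) (by
      intro y
      obtain ⟨w, rfl⟩ := toY_surjective n y
      have : (LinearEquiv.ofBijective (toY n) ⟨toY_injective n, toY_surjective n⟩).symm
          (toY n w) = w :=
        (LinearEquiv.ofBijective (toY n) ⟨toY_injective n, toY_surjective n⟩).symm_apply_apply w
      rw [this, one_mul]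
      exact norm_le_toY n w)

lemma isReflexive_YY (n : ℕ) : IsReflexive (YY n) :=
  IsReflexive.of_cle (cleY n).symm (isReflexive_of_hilbert HH)

/-- The dual space `X n`. -/
abbrev XX (n : ℕ) : Type := StrongDual ℝ (YY n)

lemma isReflexive_XX (n : ℕ) : IsReflexive (XX n) := (isReflexive_YY n).dual

instance separableSpace_XX (n : ℕ) : SeparableSpace (XX n) := by
  have : SeparableSpace HH := separableSpace_lp _
  have h1 : SeparableSpace (StrongDual ℝ HH) :=
    separableSpace_of_equiv (InnerProductSpace.toDual ℝ HH).toHomeomorph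
  let e : StrongDual ℝ HH ≃L[ℝ] StrongDual ℝ (YY n) :=
    (cleY n).arrowCongr (ContinuousLinearEquiv.refl ℝ ℝ)
  exact separableSpace_of_equiv e.toHomeomorph

/-- The basis vectors. -/
noncomputable def ee (t : List ℕ) : HH := lp.single 2 t 1

lemma ee_self (t : List ℕ) : ee t t = 1 := lp.single_apply_self _ _ _

lemma ee_ne {t s : List ℕ} (h : s ≠ t) : ee t s = 0 := lp.single_apply_ne _ _ _ h

lemma norm_ee (t : List ℕ) : ‖ee t‖ = 1 := by
  rw [ee, lp.norm_single (by norm_num), norm_one]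

/-- Evaluation of the cumulative sum as a functional. -/
noncomputable def evl (n : ℕ) (t : List ℕ) : XX n :=
  LinearMap.mkContinuous
    ((LinearMap.mk ⟨fun w : HH => cum n w t, fun v w => cum_add n v w t⟩
      (fun a w => cum_smul n a w t) : HH →ₗ[ℝ] ℝ).comp
      (cleY n).symm.toLinearEquiv.toLinearMap) 1 (by
      intro y
      obtain ⟨w, rfl⟩ := toY_surjective n y
      have h1 : (cleY n).symm (toY n w) = w := (cleY n).symm_apply_apply w
      change |cum n ((cleY n).symm (toY n w)) t| ≤ 1 * ‖toY n w‖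
      rw [h1, one_mul]
      exact (abs_cum_le_SS n w t).trans (norm_SS_le_toY n w))

lemma evl_apply (n : ℕ) (t : List ℕ) (w : HH) : evl n t (toY n w) = cum n w t := by
  have h1 : (cleY n).symm (toY n w) = w := (cleY n).symm_apply_apply w
  change cum n ((cleY n).symm (toY n w)) t = cum n w t
  rw [h1]

lemma norm_evl_le (n : ℕ) (t : List ℕ) : ‖evl n t‖ ≤ 1 :=
  LinearMap.mkContinuous_norm_le _ zero_le_one _

lemma cum_ee_le (n : ℕ) (s t : List ℕ) : |cum n (ee s) t| ≤ if t.length < s.length then 0 else 1 := by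
  induction t with
  | nil =>
    rw [cum_nil, abs_zero]
    split_ifs <;> norm_num
  | cons k t ih =>
    rw [cum_cons]
    by_cases hs : s = k :: t
    · subst hs
      have h1 : t.length < (k :: t).length := by rw [List.length_cons]; omega
      rw [if_pos h1] at ih
      have h2 : cum n (ee (k :: t)) t = 0 := abs_eq_zero.mp (le_antisymm ih (abs_nonneg _))
      rw [h2, zero_add, ee_self,
        if_neg (show ¬ (k :: t).length < (k :: t).length from lt_irrefl _)]
      split_ifs <;> norm_num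
    · have h1 : ee s (k :: t) = 0 := ee_ne (Ne.symm hs)
      rw [h1]
      simp only [ite_self, add_zero]
      refine ih.trans ?_
      rw [List.length_cons]
      split_ifs with h3 h4 h5 <;> first | omega | norm_num

lemma norm_SS_ee_le (n : ℕ) (s : List ℕ) : ‖SS n (ee s)‖ ≤ 1 :=
  lp.norm_le_of_forall_le zero_le_one fun t => (cum_ee_le n s t).trans (by split_ifs <;> norm_num)

lemma norm_toY_ee_le (n : ℕ) (s : List ℕ) : ‖toY n (ee s)‖ ≤ 2 := by
  have h := norm_toY_sq n (ee s)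
  rw [norm_ee] at h
  have h1 := norm_SS_ee_le n s
  have h2 : ‖SS n (ee s)‖ ^ 2 ≤ 1 := pow_le_one₀ (norm_nonneg _) h1
  nlinarith [norm_nonneg (toY n (ee s))]

theorem goodTree_XX (n : ℕ) : GoodTree (XX n) (1 / 2) n := by
  have hdiff : ∀ t : List ℕ, t.length < n → ∀ i : ℕ, ∀ w : HH,
      (evl n (i :: t) - evl n t) (toY n w) = w (i :: t) := by
    intro t ht i w
    rw [sub_apply, evl_apply, evl_apply, cum_cons, if_pos ht]
    ring
  refine ⟨evl n, fun t _ => norm_evl_le n t, fun t ht i => ?_, fun t ht f => ?_⟩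
  · have h1 := (evl n (i :: t) - evl n t).le_opNorm (toY n (ee (i :: t)))
    rw [hdiff t ht, ee_self, norm_one] at h1
    have h2 := norm_toY_ee_le n (i :: t)
    have h3 : ‖evl n (i :: t) - evl n t‖ * ‖toY n (ee (i :: t))‖ ≤
        ‖evl n (i :: t) - evl n t‖ * 2 := by gcongr
    linarith
  · obtain ⟨y, rfl⟩ := isReflexive_YY n f
    obtain ⟨w, rfl⟩ := toY_surjective n y
    have h1 : ∀ i : ℕ, (NormedSpace.inclusionInDoubleDual ℝ (YY n) (toY n w))
        (evl n (i :: t) - evl n t) = w (i :: t) := fun i => by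
      rw [NormedSpace.dual_def, hdiff t ht]
    simp_rw [h1]
    have hs : Summable fun s : List ℕ => ‖w s‖ ^ (2 : ℝ≥0∞).toReal :=
      (lp.memℓp w).summable (by norm_num)
    have hs2 : Summable fun s : List ℕ => (w s) ^ 2 := by simpa using hs
    have hs3 : Summable fun i : ℕ => (w (i :: t)) ^ 2 :=
      hs2.comp_injective (i := fun i : ℕ => i :: t) (fun a b h => (List.cons.inj h).1)
    have h4 := hs3.tendsto_atTop_zero
    have h5 : Tendsto (fun i : ℕ => Real.sqrt ((w (i :: t)) ^ 2)) atTop (𝓝 (Real.sqrt 0)) :=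
      (Real.continuous_sqrt.tendsto 0).comp h4
    simp_rw [Real.sqrt_sq_eq_abs, Real.sqrt_zero] at h5
    exact (tendsto_zero_iff_abs_tendsto_zero _).mpr h5

end Vale.Agent.P069
end
end

section

section

open Filter Topology TopologicalSpace
open scoped ENNReal

namespace Vale.Agent.P069

/-- The last vertex of `D` on the path from the root to `t`. -/
def vv (D : Finset (List ℕ)) : List ℕ → List ℕ
  | [] => []
  | k :: t => if k :: t ∈ D then k :: t else vv D t

lemma vv_of_mem {D : Finset (List ℕ)} {t : List ℕ} (h : t ∈ D) : vv D t = t := by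
  cases t with
  | nil => rfl
  | cons k t => rw [vv, if_pos h]

lemma vv_of_not_mem {D : Finset (List ℕ)} {k : ℕ} {t : List ℕ} (h : k :: t ∉ D) :
    vv D (k :: t) = vv D t := by
  rw [vv, if_neg h]

/-- Restriction to the finite set `D`. -/
noncomputable def res (D : Finset (List ℕ)) : HH →ₗ[ℝ] HH :=
  ∑ t ∈ D, (lp.evalCLM ℝ (fun _ : List ℕ => ℝ) 2 t).toLinearMap.smulRight (ee t)

lemma res_eq (D : Finset (List ℕ)) (w : HH) : res D w = ∑ t ∈ D, w t • ee t := by
  rw [res, LinearMap.sum_apply]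
  rfl

lemma res_apply (D : Finset (List ℕ)) (w : HH) (t : List ℕ) :
    res D w t = if t ∈ D then w t else 0 := by
  rw [res_eq, lp.coeFn_sum, Finset.sum_apply]
  have h1 : ∀ s, (w s • ee s) t = w s * ee s t := fun s => rfl
  simp_rw [h1]
  by_cases ht : t ∈ D
  · rw [if_pos ht, Finset.sum_eq_single t]
    · rw [ee_self, mul_one]
    · intro s _ hs
      rw [ee_ne hs.symm, mul_zero]
    · intro h; exact (h ht).elim
  · rw [if_neg ht]
    refine Finset.sum_eq_zero fun s hs => ?_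
    have : t ≠ s := fun h => ht (h ▸ hs)
    rw [ee_ne this, mul_zero]

lemma res_res (D : Finset (List ℕ)) (w : HH) : res D (res D w) = res D w := by
  ext t
  rw [res_apply, res_apply]
  split_ifs <;> rfl

lemma HH_hasSum_sq (w : HH) : HasSum (fun t : List ℕ => (w t) ^ 2) (‖w‖ ^ 2) := by
  have h := lp.hasSum_norm (p := 2) (by norm_num) w
  simpa using h

lemma norm_le_of_abs_le {v w : HH} (h : ∀ t, |v t| ≤ |w t|) : ‖v‖ ^ 2 ≤ ‖w‖ ^ 2 :=
  hasSum_le (fun t => sq_le_sq.mpr (h t)) (HH_hasSum_sq v) (HH_hasSum_sq w)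

lemma cum_supp {D : Finset (List ℕ)} (n : ℕ) {f : HH} (hf : ∀ t, t ∉ D → f t = 0)
    (t : List ℕ) : cum n f t = cum n f (vv D t) := by
  induction t with
  | nil => rfl
  | cons k t ih =>
    by_cases h : k :: t ∈ D
    · rw [vv_of_mem h]
    · rw [vv_of_not_mem h, ← ih, cum_cons, hf _ h]
      simp

lemma cum_res {D : Finset (List ℕ)} (hD : ∀ k t, k :: t ∈ D → t ∈ D) (n : ℕ) (w : HH)
    (t : List ℕ) : cum n (res D w) t = cum n w (vv D t) := by
  induction t with
  | nil => rfl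
  | cons k t ih =>
    rw [cum_cons, ih, res_apply]
    by_cases h : k :: t ∈ D
    · rw [vv_of_mem h, vv_of_mem (hD k t h), if_pos h, cum_cons]
    · rw [vv_of_not_mem h, if_neg h]
      simp

lemma norm_toY_res_le {D : Finset (List ℕ)} (hD : ∀ k t, k :: t ∈ D → t ∈ D) (n : ℕ) (w : HH) :
    ‖toY n (res D w)‖ ≤ ‖toY n w‖ := by
  refine le_of_sq_le_sq ?_ (norm_nonneg _)
  rw [norm_toY_sq, norm_toY_sq]
  have h1 : ‖res D w‖ ^ 2 ≤ ‖w‖ ^ 2 := norm_le_of_abs_le fun t => by
    rw [res_apply]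
    split_ifs
    · exact le_rfl
    · rw [abs_zero]; exact abs_nonneg _
  have h2 : ‖SS n (res D w)‖ ≤ ‖SS n w‖ := by
    refine lp.norm_le_of_forall_le (norm_nonneg _) fun t => ?_
    rw [SS_apply, cum_res hD, Real.norm_eq_abs]
    exact abs_cum_le_SS n w _
  have h3 : ‖SS n (res D w)‖ ^ 2 ≤ ‖SS n w‖ ^ 2 := by gcongr
  linarith

lemma abs_add_le_max {x y : ℝ} (h : x * y ≤ 0) : |x + y| ≤ max |x| |y| := by
  rw [abs_le]
  have hx1 := le_abs_self x
  have hx2 := neg_abs_le x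
  have hy1 := le_abs_self y
  have hy2 := neg_abs_le y
  have hm1 := le_max_left |x| |y|
  have hm2 := le_max_right |x| |y|
  rcases mul_nonpos_iff.mp h with ⟨h1, h2⟩ | ⟨h1, h2⟩
  · constructor <;> linarith
  · constructor <;> linarith

lemma key_one {D : Finset (List ℕ)} {n : ℕ} {f g h : HH} {H : List ℕ → ℝ}
    (hcum : ∀ t, cum n h t = H t) (hle : ∀ t, |h t| ≤ |g t|)
    (hHle : ∀ t, |H t| ≤ 2 * ‖SS n g‖) (hsign : ∀ t, H t * cum n f (vv D t) ≤ 0)
    (hf : ∀ t, t ∉ D → f t = 0) (hh : ∀ t ∈ D, h t = 0) {a c : ℝ} (ha : 0 ≤ a) (hc : 0 ≤ c) :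
    ‖toY n (a • f + c • h)‖ ^ 2 ≤ a ^ 2 * ‖toY n f‖ ^ 2 + 4 * c ^ 2 * ‖toY n g‖ ^ 2 := by
  rw [norm_toY_sq, norm_toY_sq, norm_toY_sq]
  have h1 : ‖a • f + c • h‖ ^ 2 ≤ a ^ 2 * ‖f‖ ^ 2 + c ^ 2 * ‖g‖ ^ 2 := by
    have s1 := ((HH_hasSum_sq f).mul_left (a ^ 2)).add ((HH_hasSum_sq g).mul_left (c ^ 2))
    refine hasSum_le (fun t => ?_) (HH_hasSum_sq (a • f + c • h)) s1
    have e1 : (a • f + c • h) t = a * f t + c * h t := rfl
    rw [e1]
    by_cases ht : t ∈ D
    · rw [hh t ht]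
      have := mul_nonneg (sq_nonneg c) (sq_nonneg (g t))
      nlinarith
    · rw [hf t ht]
      have h2 : (h t) ^ 2 ≤ (g t) ^ 2 := sq_le_sq.mpr (hle t)
      have h3 := mul_le_mul_of_nonneg_left h2 (sq_nonneg c)
      nlinarith
  have h2 : ‖SS n (a • f + c • h)‖ ≤ max (a * ‖SS n f‖) (c * (2 * ‖SS n g‖)) := by
    refine lp.norm_le_of_forall_le (le_max_of_le_left (by positivity)) fun t => ?_
    have e1 : SS n (a • f + c • h) t = a * cum n f (vv D t) + c * H t := by
      rw [map_add, map_smul, map_smul]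
      have : (a • SS n f + c • SS n h) t = a * cum n f t + c * cum n h t := rfl
      rw [this, cum_supp n hf t, hcum]
    rw [e1, Real.norm_eq_abs]
    refine (abs_add_le_max ?_).trans (max_le_max ?_ ?_)
    · have h3 := hsign t
      have h4 : 0 ≤ a * c := mul_nonneg ha hc
      nlinarith [mul_le_mul_of_nonneg_left h3 h4]
    · rw [abs_mul, abs_of_nonneg ha]
      exact mul_le_mul_of_nonneg_left (abs_cum_le_SS n f _) ha
    · rw [abs_mul, abs_of_nonneg hc]
      exact mul_le_mul_of_nonneg_left (hHle t) hc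
  have h3 : ‖SS n (a • f + c • h)‖ ^ 2 ≤
      (a * ‖SS n f‖) ^ 2 + (c * (2 * ‖SS n g‖)) ^ 2 := by
    rcases le_total (a * ‖SS n f‖) (c * (2 * ‖SS n g‖)) with h4 | h4
    · rw [max_eq_right h4] at h2
      have := pow_le_pow_left₀ (norm_nonneg _) h2 2
      have := sq_nonneg (a * ‖SS n f‖)
      linarith
    · rw [max_eq_left h4] at h2
      have := pow_le_pow_left₀ (norm_nonneg _) h2 2
      have := sq_nonneg (c * (2 * ‖SS n g‖))
      linarith
  have h4 := mul_nonneg (sq_nonneg c) (sq_nonneg ‖g‖)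
  nlinarith

/-- Increments of a cumulative function, with prescribed values at the uncounted nodes. -/
def incr (n : ℕ) (H x : List ℕ → ℝ) : List ℕ → ℝ
  | [] => x []
  | k :: t => if t.length < n then H (k :: t) - H t else x (k :: t)

lemma cum_incr {n : ℕ} {H x : List ℕ → ℝ} (h0 : H [] = 0)
    (hH : ∀ k t, ¬ t.length < n → H (k :: t) = H t) (t : List ℕ) :
    cum n (incr n H x) t = H t := by
  induction t with
  | nil => rw [cum_nil, h0]
  | cons k t ih =>
    rw [cum_cons, ih]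
    by_cases h : t.length < n
    · rw [if_pos h, incr, if_pos h]; ring
    · rw [if_neg h, hH k t h, add_zero]

theorem key_dec {D : Finset (List ℕ)} (h0 : [] ∈ D) (hD : ∀ k t, k :: t ∈ D → t ∈ D) (n : ℕ)
    (f g : HH) (hf : ∀ t, t ∉ D → f t = 0) :
    ∃ h₁ h₂ : HH, g - res D g = h₁ - h₂ ∧ res D h₁ = 0 ∧ res D h₂ = 0 ∧
      (∀ a c : ℝ, 0 ≤ a → 0 ≤ c → ‖toY n (a • f + c • h₁)‖ ^ 2 ≤
        a ^ 2 * ‖toY n f‖ ^ 2 + 4 * c ^ 2 * ‖toY n g‖ ^ 2) ∧
      (∀ a c : ℝ, 0 ≤ a → 0 ≤ c → ‖toY n (a • f + c • h₂)‖ ^ 2 ≤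
        a ^ 2 * ‖toY n f‖ ^ 2 + 4 * c ^ 2 * ‖toY n g‖ ^ 2) := by
  classical
  set g' : HH := g - res D g with hg'
  have hg'a : ∀ t, g' t = if t ∈ D then 0 else g t := by
    intro t
    have : g' t = g t - res D g t := rfl
    rw [this, res_apply]
    split_ifs <;> ring
  set G : List ℕ → ℝ := fun t => cum n g' t with hG
  have hG1 : ∀ t, G t = cum n g t - cum n g (vv D t) := by
    intro t
    have h1 : SS n g' t = (SS n g - SS n (res D g)) t := by rw [hg', map_sub]
    have h2 : (SS n g - SS n (res D g)) t = cum n g t - cum n (res D g) t := rfl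
    rw [← cum_res hD, ← h2, ← h1, SS_apply]
  have hGD : ∀ t ∈ D, G t = 0 := by
    intro t ht
    rw [hG1, vv_of_mem ht, sub_self]
  have hGle : ∀ t, |G t| ≤ 2 * ‖SS n g‖ := by
    intro t
    rw [hG1]
    refine (abs_sub _ _).trans ?_
    have := abs_cum_le_SS n g t
    have := abs_cum_le_SS n g (vv D t)
    linarith
  have hGcons : ∀ k t, G (k :: t) = G t + if t.length < n then g' (k :: t) else 0 :=
    fun k t => rfl
  set σ : List ℕ → ℝ := fun t => if 0 ≤ cum n f (vv D t) then 1 else -1 with hσ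
  have hσ1 : ∀ t, σ t = 1 ∨ σ t = -1 := by
    intro t
    rw [hσ]
    simp only
    split_ifs <;> simp
  have hσσ : ∀ t, σ t * σ t = 1 := fun t => by rcases hσ1 t with h | h <;> rw [h] <;> norm_num
  have hσabs : ∀ t x, |σ t * x| = |x| := fun t x => by
    rw [abs_mul]; rcases hσ1 t with h | h <;> rw [h] <;> simp
  have hσcons : ∀ k t, k :: t ∉ D → σ (k :: t) = σ t := by
    intro k t h
    rw [hσ]
    simp only [vv_of_not_mem h]
  have hσF : ∀ t, 0 ≤ σ t * cum n f (vv D t) := by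
    intro t
    rw [hσ]
    simp only
    split_ifs with h
    · rw [one_mul]; exact h
    · push Not at h
      linarith
  have gen : ∀ e : ℝ, (e = 1 ∨ e = -1) → ∀ x : HH, (∀ t, |x t| ≤ |g' t|) →
      ∃ h : HH, (∀ t, h t = incr n (fun t => -(σ t * max (-(e * (σ t * G t))) 0)) x t) ∧
        res D h = 0 ∧
        (∀ a c : ℝ, 0 ≤ a → 0 ≤ c → ‖toY n (a • f + c • h)‖ ^ 2 ≤
          a ^ 2 * ‖toY n f‖ ^ 2 + 4 * c ^ 2 * ‖toY n g‖ ^ 2) := by
    intro e he x hx
    set H : List ℕ → ℝ := fun t => -(σ t * max (-(e * (σ t * G t))) 0) with hH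
    have habse : ∀ y : ℝ, |e * y| = |y| := fun y => by
      rw [abs_mul]; rcases he with h | h <;> rw [h] <;> simp
    have hHD : ∀ t ∈ D, H t = 0 := by
      intro t ht
      simp only [hH, hGD t ht]
      simp
    have hHle : ∀ t, |H t| ≤ |G t| := by
      intro t
      simp only [hH]
      rw [abs_neg, hσabs]
      have h1 := abs_max_sub_max_le_abs (-(e * (σ t * G t))) 0 0
      rw [max_self, sub_zero, sub_zero, abs_neg, habse, hσabs] at h1
      exact h1
    have hdiff : ∀ k t, |H (k :: t) - H t| ≤ |G (k :: t) - G t| := by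
      intro k t
      by_cases h : k :: t ∈ D
      · rw [hHD _ h, hHD _ (hD k t h), hGD _ h, hGD _ (hD k t h)]
      · simp only [hH]
        rw [hσcons k t h, neg_sub_neg, ← mul_sub, hσabs, abs_sub_comm]
        have h1 := abs_max_sub_max_le_abs (-(e * (σ t * G (k :: t)))) (-(e * (σ t * G t))) 0
        rw [neg_sub_neg, abs_sub_comm (e * (σ t * G t)), ← mul_sub, ← mul_sub, habse, hσabs] at h1
        exact h1
    have hinc : ∀ t, |incr n H x t| ≤ |g' t| := by
      intro t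
      cases t with
      | nil => exact hx []
      | cons k t =>
        rw [incr]
        by_cases h : t.length < n
        · rw [if_pos h]
          have h1 := hdiff k t
          rw [hGcons, if_pos h, add_sub_cancel_left] at h1
          exact h1
        · rw [if_neg h]
          exact hx _
    have hmem : Memℓp (incr n H x) 2 := by
      have hm : Memℓp (fun t => ‖g' t‖) 2 := memℓp_norm_iff.mpr (lp.memℓp g')
      exact hm.mono hinc
    have hstab : ∀ k t, ¬ t.length < n → H (k :: t) = H t := by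
      intro k t h
      have h1 := hdiff k t
      rw [hGcons, if_neg h, add_zero, sub_self, abs_zero] at h1
      exact sub_eq_zero.mp (abs_eq_zero.mp (le_antisymm h1 (abs_nonneg _)))
    have hg'g : ∀ t, |g' t| ≤ |g t| := by
      intro t
      rw [hg'a]
      split_ifs
      · rw [abs_zero]; exact abs_nonneg _
      · exact le_rfl
    have hzero : ∀ t ∈ D, incr n H x t = 0 := by
      intro t ht
      have h1 := hinc t
      rw [hg'a, if_pos ht, abs_zero] at h1
      exact abs_eq_zero.mp (le_antisymm h1 (abs_nonneg _))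
    refine ⟨⟨incr n H x, hmem⟩, fun t => rfl, ?_, fun a c ha hc => ?_⟩
    · ext t
      rw [res_apply]
      split_ifs with h
      · exact hzero t h
      · rfl
    · refine key_one (D := D) (H := H) (fun t => cum_incr (hHD [] h0) hstab t)
        (fun t => (hinc t).trans (hg'g t)) (fun t => (hHle t).trans (hGle t)) (fun t => ?_) hf
        hzero ha hc
      simp only [hH]
      have h1 := hσF t
      have h2 : 0 ≤ max (-(e * (σ t * G t))) 0 := le_max_right _ _
      nlinarith [mul_nonneg h1 h2]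
  obtain ⟨h₁, h1a, h1b, h1c⟩ := gen 1 (Or.inl rfl) g' (fun t => le_rfl)
  obtain ⟨h₂, h2a, h2b, h2c⟩ := gen (-1) (Or.inr rfl) 0 (fun t => by
    have : (0 : HH) t = 0 := rfl
    rw [this, abs_zero]; exact abs_nonneg _)
  refine ⟨h₁, h₂, ?_, h1b, h2b, h1c, h2c⟩
  ext t
  have e1 : (h₁ - h₂) t = h₁ t - h₂ t := rfl
  rw [e1, h1a, h2a]
  have hmm : ∀ t, -(σ t * max (-(1 * (σ t * G t))) 0) - -(σ t * max (-(-1 * (σ t * G t))) 0)
      = G t := by
    intro t
    have h3 : max (-(-1 * (σ t * G t))) 0 - max (-(1 * (σ t * G t))) 0 = σ t * G t := by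
      rcases le_total 0 (σ t * G t) with h | h
      · rw [max_eq_left (by linarith), max_eq_right (by linarith)]; ring
      · rw [max_eq_right (by linarith), max_eq_left (by linarith)]; ring
    calc _ = σ t * (max (-(-1 * (σ t * G t))) 0 - max (-(1 * (σ t * G t))) 0) := by ring
      _ = G t := by rw [h3, ← mul_assoc, hσσ, one_mul]
  cases t with
  | nil =>
    rw [incr, incr]
    have : (0 : HH) [] = 0 := rfl
    rw [this, sub_zero]
  | cons k t =>
    rw [incr, incr]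
    by_cases h : t.length < n
    · rw [if_pos h, if_pos h]
      have h3 := hmm (k :: t)
      have h4 := hmm t
      have h5 := hGcons k t
      rw [if_pos h] at h5
      linarith
    · rw [if_neg h, if_neg h]
      have : (0 : HH) (k :: t) = 0 := rfl
      rw [this, sub_zero]

end Vale.Agent.P069
end
end

section

section

open Filter Topology TopologicalSpace
open scoped ENNReal

namespace Vale.Agent.P069

section general

variable {E Y : Type*} [AddCommGroup E] [Module ℝ E] [NormedAddCommGroup Y] [NormedSpace ℝ Y]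

/-- Nearly norming vectors. -/
lemma exists_near_norming (φ : StrongDual ℝ Y) {θ : ℝ} (h1 : θ < 1) :
    ∃ z : Y, ‖z‖ ≤ 1 ∧ θ * ‖φ‖ ≤ φ z := by
  rcases eq_or_lt_of_le (norm_nonneg φ) with h | h
  · exact ⟨0, by simp, by rw [← h]; simp⟩
  · obtain ⟨z, hz1, hz2⟩ := ContinuousLinearMap.exists_lt_apply_of_lt_opNorm φ
      (show θ * ‖φ‖ < ‖φ‖ by nlinarith)
    rcases le_total 0 (φ z) with h2 | h2
    · rw [Real.norm_of_nonneg h2] at hz2
      exact ⟨z, hz1.le, hz2.le⟩
    · rw [Real.norm_of_nonpos h2] at hz2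
      exact ⟨-z, by rw [norm_neg]; exact hz1.le, by rw [map_neg]; exact hz2.le⟩

lemma twoAMUC_step {T : E →ₗ[ℝ] Y} (hT : ∀ y, ∃ w, T w = y) {P : E →ₗ[ℝ] E}
    (hP : ∀ w, ‖T (P w)‖ ≤ ‖T w‖) (u y : StrongDual ℝ Y)
    (hu : ∀ w, u (T (P w)) = u (T w)) (hy : ∀ w, y (T (P w)) = 0) : ‖u‖ ≤ ‖u + y‖ := by
  refine ContinuousLinearMap.opNorm_le_bound _ (norm_nonneg _) fun v => ?_
  obtain ⟨w, rfl⟩ := hT v
  have h1 : u (T w) = (u + y) (T (P w)) := by
    rw [add_apply, hu, hy, add_zero]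
  rw [h1]
  refine ((u + y).le_opNorm _).trans ?_
  exact mul_le_mul_of_nonneg_left (hP w) (norm_nonneg _)

lemma twoAMUC_half {Q θ m r : ℝ} (hQ : 0 ≤ Q) (hθ : 0 ≤ θ)
    (hr : r ^ 2 ≤ Q) (h : θ * Q ≤ m * r) : θ ^ 2 * Q ≤ m ^ 2 := by
  rcases eq_or_lt_of_le hQ with h0 | h0
  · rw [← h0, mul_zero]; exact sq_nonneg _
  · have h1 : (θ * Q) ^ 2 ≤ (m * r) ^ 2 := pow_le_pow_left₀ (by positivity) h 2
    have h2 : (m * r) ^ 2 ≤ m ^ 2 * Q := by
      rw [mul_pow]; exact mul_le_mul_of_nonneg_left hr (sq_nonneg _)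
    have h3 : θ ^ 2 * Q * Q ≤ m ^ 2 * Q := by nlinarith
    exact le_of_mul_le_mul_right h3 h0

lemma twoAMUC_case {T : E →ₗ[ℝ] Y} (u y : StrongDual ℝ Y) {Q θ : ℝ}
    (hQ : Q = ‖u‖ ^ 2 + ‖y‖ ^ 2 / 16) (hθ0 : 0 ≤ θ) {f h g : E}
    (hf1 : ‖T f‖ ^ 2 ≤ 1) (hg1 : ‖T g‖ ^ 2 ≤ 1) (hf2 : θ * ‖u‖ ≤ u (T f))
    (hyf : y (T f) = 0) (huh : u (T h) = 0) (hcase : θ * ‖y‖ / 2 ≤ y (T h))
    (hn : ∀ a c : ℝ, 0 ≤ a → 0 ≤ c → ‖T (a • f + c • h)‖ ^ 2 ≤
      a ^ 2 * ‖T f‖ ^ 2 + 4 * c ^ 2 * ‖T g‖ ^ 2) : θ ^ 2 * Q ≤ ‖u + y‖ ^ 2 := by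
  have hQ0 : 0 ≤ Q := by rw [hQ]; positivity
  have ha0 : 0 ≤ ‖u‖ := norm_nonneg _
  have hc0 : 0 ≤ ‖y‖ / 8 := by positivity
  have hnorm : ‖T (‖u‖ • f + (‖y‖ / 8) • h)‖ ^ 2 ≤ Q := by
    have e1 := mul_le_mul_of_nonneg_left hf1 (sq_nonneg ‖u‖)
    have e2 := mul_le_mul_of_nonneg_left hg1 (show 0 ≤ 4 * (‖y‖ / 8) ^ 2 by positivity)
    have e3 : ‖u‖ ^ 2 + 4 * (‖y‖ / 8) ^ 2 = Q := by rw [hQ]; ring
    have e4 := hn _ _ ha0 hc0
    linarith
  have e1 : (u + y) (T (‖u‖ • f + (‖y‖ / 8) • h)) = ‖u‖ * u (T f) + (‖y‖ / 8) * y (T h) := by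
    rw [add_apply, map_add, map_smul, map_smul, map_add, map_add, map_smul, map_smul,
      map_smul, map_smul, huh, hyf]
    simp only [smul_eq_mul]
    ring
  have e2 : θ * Q ≤ (u + y) (T (‖u‖ • f + (‖y‖ / 8) • h)) := by
    rw [e1]
    have e3 := mul_le_mul_of_nonneg_left hf2 ha0
    have e4 := mul_le_mul_of_nonneg_left hcase hc0
    have e5 : ‖u‖ * (θ * ‖u‖) + (‖y‖ / 8) * (θ * ‖y‖ / 2) = θ * Q := by
      rw [hQ]; ring
    linarith
  have e6 : θ * Q ≤ ‖u + y‖ * ‖T (‖u‖ • f + (‖y‖ / 8) • h)‖ :=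
    e2.trans ((le_abs_self _).trans ((u + y).le_opNorm _))
  exact twoAMUC_half hQ0 hθ0 hnorm e6

theorem twoAMUC_ineq {T : E →ₗ[ℝ] Y} (hT : ∀ y, ∃ w, T w = y) {P : E →ₗ[ℝ] E}
    (hP : ∀ w, ‖T (P w)‖ ≤ ‖T w‖)
    (hkey : ∀ f₀ g : E, ∃ h₁ h₂ : E, g - P g = h₁ - h₂ ∧ P h₁ = 0 ∧ P h₂ = 0 ∧
      (∀ a c : ℝ, 0 ≤ a → 0 ≤ c → ‖T (a • P f₀ + c • h₁)‖ ^ 2 ≤
        a ^ 2 * ‖T (P f₀)‖ ^ 2 + 4 * c ^ 2 * ‖T g‖ ^ 2) ∧
      (∀ a c : ℝ, 0 ≤ a → 0 ≤ c → ‖T (a • P f₀ + c • h₂)‖ ^ 2 ≤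
        a ^ 2 * ‖T (P f₀)‖ ^ 2 + 4 * c ^ 2 * ‖T g‖ ^ 2))
    (u y : StrongDual ℝ Y) (hu : ∀ w, u (T (P w)) = u (T w)) (hy : ∀ w, y (T (P w)) = 0) :
    2 * ‖u‖ ^ 2 + 1 / 16 * ‖y‖ ^ 2 ≤ ‖u + y‖ ^ 2 + ‖u - y‖ ^ 2 := by
  obtain ⟨Q, hQ⟩ : ∃ Q : ℝ, Q = ‖u‖ ^ 2 + ‖y‖ ^ 2 / 16 := ⟨_, rfl⟩
  have hplus : ‖u‖ ≤ ‖u + y‖ := twoAMUC_step hT hP u y hu hy
  have hminus : ‖u‖ ≤ ‖u - y‖ := by
    rw [sub_eq_add_neg]
    exact twoAMUC_step hT hP u (-y) hu (fun w => by rw [neg_apply, hy, neg_zero])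
  have hplus2 : ‖u‖ ^ 2 ≤ ‖u + y‖ ^ 2 := pow_le_pow_left₀ (norm_nonneg _) hplus 2
  have hminus2 : ‖u‖ ^ 2 ≤ ‖u - y‖ ^ 2 := pow_le_pow_left₀ (norm_nonneg _) hminus 2
  have main : ∀ θ : ℝ, 0 ≤ θ → θ < 1 → θ ^ 2 * Q + ‖u‖ ^ 2 ≤ ‖u + y‖ ^ 2 + ‖u - y‖ ^ 2 := by
    intro θ hθ0 hθ1
    obtain ⟨f', hf'1, hf'2⟩ := exists_near_norming u hθ1
    obtain ⟨f₀, rfl⟩ := hT f'
    obtain ⟨g', hg'1, hg'2⟩ := exists_near_norming y hθ1
    obtain ⟨g, rfl⟩ := hT g'
    have hf1 : ‖T (P f₀)‖ ^ 2 ≤ 1 := pow_le_one₀ (norm_nonneg _) ((hP f₀).trans hf'1)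
    have hg1 : ‖T g‖ ^ 2 ≤ 1 := pow_le_one₀ (norm_nonneg _) hg'1
    have hf2 : θ * ‖u‖ ≤ u (T (P f₀)) := by rw [hu]; exact hf'2
    obtain ⟨h₁, h₂, hdec, hr1, hr2, hn1, hn2⟩ := hkey f₀ g
    have hu1 : u (T h₁) = 0 := by rw [← hu, hr1, map_zero, map_zero]
    have hu2 : u (T h₂) = 0 := by rw [← hu, hr2, map_zero, map_zero]
    have hy12 : y (T h₁) - y (T h₂) = y (T g) := by
      rw [← map_sub, ← map_sub, ← hdec, map_sub, map_sub, hy, sub_zero]
    rcases le_or_gt (θ * ‖y‖ / 2) (y (T h₁)) with hcase | hcase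
    · have := twoAMUC_case u y hQ hθ0 hf1 hg1 hf2 (hy f₀) hu1 hcase hn1
      linarith
    · have h3 : θ * ‖-y‖ / 2 ≤ (-y) (T h₂) := by
        rw [norm_neg, neg_apply]; linarith
      have := twoAMUC_case u (-y) (Q := Q) (by rw [norm_neg]; exact hQ) hθ0 hf1 hg1 hf2
        (by rw [neg_apply, hy, neg_zero]) hu2 h3 hn2
      rw [← sub_eq_add_neg] at this
      linarith
  have hlim : Tendsto (fun θ : ℝ => θ ^ 2 * Q + ‖u‖ ^ 2) (𝓝[<] 1) (𝓝 (1 ^ 2 * Q + ‖u‖ ^ 2)) := by
    have : Continuous fun θ : ℝ => θ ^ 2 * Q + ‖u‖ ^ 2 := by fun_prop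
    exact (this.tendsto 1).mono_left nhdsWithin_le_nhds
  have hfin : 1 ^ 2 * Q + ‖u‖ ^ 2 ≤ ‖u + y‖ ^ 2 + ‖u - y‖ ^ 2 := by
    refine le_of_tendsto hlim ?_
    filter_upwards [Ioo_mem_nhdsLT (show (0 : ℝ) < 1 by norm_num)] with θ hθ
    exact main θ hθ.1.le hθ.2
  rw [hQ] at hfin
  linarith

end general

lemma exists_closure (s : Finset (List ℕ)) :
    ∃ D : Finset (List ℕ), s ⊆ D ∧ [] ∈ D ∧ ∀ k t, k :: t ∈ D → t ∈ D := by
  classical
  refine ⟨insert [] (s.biUnion fun t => t.tails.toFinset), ?_, Finset.mem_insert_self _ _, ?_⟩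
  · intro t ht
    refine Finset.mem_insert_of_mem (Finset.mem_biUnion.mpr ⟨t, ht, ?_⟩)
    rw [List.mem_toFinset, List.mem_tails]
  · intro k t h
    rcases Finset.mem_insert.mp h with h1 | h1
    · exact absurd h1 (List.cons_ne_nil _ _)
    · obtain ⟨x, hx, hx2⟩ := Finset.mem_biUnion.mp h1
      rw [List.mem_toFinset, List.mem_tails] at hx2
      refine Finset.mem_insert_of_mem (Finset.mem_biUnion.mpr ⟨x, hx, ?_⟩)
      rw [List.mem_toFinset, List.mem_tails]
      exact (List.suffix_cons k t).trans hx2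

section space

variable {Y : Type*} [NormedAddCommGroup Y] [NormedSpace ℝ Y]

theorem twoAMUC_of_support {T : HH →ₗ[ℝ] Y} {D : Finset (List ℕ)}
    (hineq : ∀ u y : StrongDual ℝ Y, (∀ w, u (T (res D w)) = u (T w)) →
      (∀ w, y (T (res D w)) = 0) →
      2 * ‖u‖ ^ 2 + 1 / 16 * ‖y‖ ^ 2 ≤ ‖u + y‖ ^ 2 + ‖u - y‖ ^ 2)
    (u : StrongDual ℝ Y) (hu : ∀ w : HH, u (T (res D w)) = u (T w)) : TwoAMUC (1 / 16) u := by
  let g : StrongDual ℝ Y →ₗ[ℝ] (D → ℝ) := LinearMap.pi fun t : D =>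
    (NormedSpace.inclusionInDoubleDual ℝ Y (T (ee t.1))).toLinearMap
  have hker : ∀ y : StrongDual ℝ Y, y ∈ LinearMap.ker g ↔ ∀ t : D, y (T (ee t.1)) = 0 := by
    intro y
    rw [LinearMap.mem_ker]
    constructor
    · intro h t
      have h1 : g y t = 0 := by rw [h]; rfl
      exact h1
    · intro h
      ext t
      exact h t
  refine ⟨LinearMap.ker g, ⟨?_, finiteDimensional_quotient_of_ker_le g _ le_rfl⟩, ?_⟩
  · have : (LinearMap.ker g : Set (StrongDual ℝ Y)) = ⋂ t : D,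
        (NormedSpace.inclusionInDoubleDual ℝ Y (T (ee t.1))) ⁻¹' {0} := by
      ext y
      simp only [SetLike.mem_coe, Set.mem_iInter, Set.mem_preimage, Set.mem_singleton_iff]
      exact hker y
    rw [this]
    exact isClosed_iInter fun t => isClosed_singleton.preimage
      (NormedSpace.inclusionInDoubleDual ℝ Y (T (ee t.1))).continuous
  · intro y hy
    rw [hker] at hy
    refine hineq u y hu fun w => ?_
    rw [res_eq, map_sum, map_sum]
    refine Finset.sum_eq_zero fun t ht => ?_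
    rw [map_smul, map_smul, hy ⟨t, ht⟩, smul_zero]

theorem dense_twoAMUC (T : HH ≃L[ℝ] Y) (hT1 : ∀ w, ‖w‖ ≤ ‖T w‖)
    (hres : ∀ D : Finset (List ℕ), (∀ k t, k :: t ∈ D → t ∈ D) → ∀ w, ‖T (res D w)‖ ≤ ‖T w‖)
    (hineq : ∀ D : Finset (List ℕ), [] ∈ D → (∀ k t, k :: t ∈ D → t ∈ D) →
      ∀ u y : StrongDual ℝ Y, (∀ w, u (T (res D w)) = u (T w)) →
      (∀ w, y (T (res D w)) = 0) →
      2 * ‖u‖ ^ 2 + 1 / 16 * ‖y‖ ^ 2 ≤ ‖u + y‖ ^ 2 + ‖u - y‖ ^ 2) :
    Dense {u : StrongDual ℝ Y | TwoAMUC (1 / 16) u} := by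
  have hsurj : ∀ y, ∃ w, T w = y := fun y => ⟨T.symm y, T.apply_symm_apply y⟩
  rw [Metric.dense_iff]
  intro u r hr
  -- representing vector
  set z : HH := (InnerProductSpace.toDual ℝ HH).symm (u.comp (T : HH →L[ℝ] Y)) with hz
  have hzu : ∀ w : HH, inner ℝ z w = u (T w) := fun w => by
    rw [hz, InnerProductSpace.toDual_symm_apply]
    rfl
  have hsum : Tendsto (fun s : Finset (List ℕ) => ∑ t ∈ s, (lp.single 2 t (z t) : HH)) atTop
      (𝓝 z) := by
    have h := lp.hasSum_single (p := 2) (by norm_num) z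
    rwa [HasSum, SummationFilter.unconditional_filter] at h
  rw [Metric.tendsto_atTop] at hsum
  obtain ⟨s, hs⟩ := hsum (r / 2) (by linarith)
  obtain ⟨D, hsD, h0, hD⟩ := exists_closure s
  have hzD : ‖z - res D z‖ < r / 2 := by
    have h1 := hs D hsD
    rw [dist_comm, dist_eq_norm] at h1
    have h2 : res D z = ∑ t ∈ D, lp.single 2 t (z t) := by
      rw [res_eq]
      refine Finset.sum_congr rfl fun t _ => ?_
      rw [ee, ← lp.single_smul, smul_eq_mul, mul_one]
    rw [h2]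
    exact h1
  -- the truncated functional
  let L : Y →ₗ[ℝ] ℝ := u.toLinearMap.comp
    ((T.toLinearEquiv.toLinearMap.comp (res D)).comp T.symm.toLinearEquiv.toLinearMap)
  have hL : ∀ w : HH, L (T w) = u (T (res D w)) := by
    intro w
    change u (T (res D (T.symm (T w)))) = _
    rw [T.symm_apply_apply]
  let v : StrongDual ℝ Y := LinearMap.mkContinuous L ‖u‖ (by
    intro y
    obtain ⟨w, rfl⟩ := hsurj y
    rw [hL]
    exact (u.le_opNorm _).trans
      (mul_le_mul_of_nonneg_left (hres D hD w) (norm_nonneg _)))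
  have hv : ∀ w : HH, v (T w) = u (T (res D w)) := hL
  refine ⟨v, ?_, ?_⟩
  · rw [Metric.mem_ball, dist_comm, dist_eq_norm]
    refine lt_of_le_of_lt (b := r / 2) ?_ (by linarith)
    refine ContinuousLinearMap.opNorm_le_bound _ (by linarith) fun y => ?_
    obtain ⟨w, rfl⟩ := hsurj y
    have hinner : inner ℝ z (res D w) = inner ℝ (res D z) w := by
      rw [lp.inner_eq_tsum, lp.inner_eq_tsum]
      refine tsum_congr fun t => ?_
      rw [res_apply, res_apply]
      split_ifs <;> simp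
    have h1 : (u - v) (T w) = inner ℝ (z - res D z) w := by
      rw [sub_apply, hv, ← hzu, ← hzu, hinner, inner_sub_left]
    rw [h1]
    refine (norm_inner_le_norm _ _).trans ?_
    exact mul_le_mul hzD.le (hT1 w) (norm_nonneg _) (by linarith)
  · exact twoAMUC_of_support (T := T.toLinearEquiv.toLinearMap) (hineq D h0 hD) v
      fun w => by
        change v (T (res D w)) = v (T w)
        rw [hv, hv, res_res]

end space

theorem dense_twoAMUC_XX (n : ℕ) : Dense {u : XX n | TwoAMUC (1 / 16) u} := by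
  refine dense_twoAMUC (cleY n) (norm_le_toY n) (fun D hD w => norm_toY_res_le hD n w)
    (fun D h0 hD u y hu hy => ?_)
  refine twoAMUC_ineq (T := toY n) (P := res D) (toY_surjective n)
    (fun w => norm_toY_res_le hD n w) (fun f₀ g => ?_) u y hu hy
  exact key_dec h0 hD n (res D f₀) g (fun t ht => by rw [res_apply, if_neg ht])

end Vale.Agent.P069
end
end
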